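import Vale.Agent.P141.H337.RootQ

/-!
# P141, line W: root estimates for bounded functions, with a small power of the height

`RootQH q n H P`: the root estimate for functions whose `L^q` window averages are `≤ 1` on all the
nodes and whose height is `≤ H`.  `RootG q`: the constant is `≤ P H^γ` for every `γ > 0`,
uniformly in the number of scales `n`.

* `rootQ_of_rootQH`: decomposition in level sets; one `γ` with `γ q₁ < q₁ - q` is enough;
* `bounded_of_rootG`, `bounded_444_of_rootG`: the trilinear Hilbert transform is bounded.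
-/

namespace Vale.Agent.P141.H337

open Finset Vale.Agent.P141.PL Vale.Agent.P141.PL.H620 Vale.Agent.P141.PL.H571
open scoped ENNReal SchwartzMap

/-- **ROOT ESTIMATE, `L^q` sizes and height `≤ H`** -/
def RootQH (q : ℝ) (n : ℕ) (H P : ℝ) : Prop :=
  ∀ f : Fin 4 → ℤ → ℝ, (∀ j, (Function.support (f j)).Finite) → ∀ o : ℤ, (o = 1 ∨ o = -1) →
    ∀ K ≤ n, ∀ V : ℤ, ∀ 𝒩 : Finset (ℕ × ℤ),
    (∀ N ∈ 𝒩, 1 ≤ N.1 ∧ N.1 ≤ K ∧ N.2 / 2 ^ (K - N.1) = V) →
    (∀ N ∈ 𝒩, ∀ k', N.1 ≤ k' → k' ≤ K → (k', N.2 / 2 ^ (k' - N.1)) ∈ 𝒩) →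
    (∀ j x, |f j x| ≤ H) →
    (∀ N ∈ 𝒩, ∀ j, ∑ y ∈ W N.1 N.2, |f j y| ^ q ≤ 2 ^ (N.1 + 5)) →
    ∑ N ∈ 𝒩, ((4 : ℝ) ^ N.1)⁻¹ * |loc1 N.1 (nn o N.2 0 0) f| ≤ P * 2 ^ K

/-- uniform in `n`, a small power of the height is allowed -/
def RootG (q : ℝ) : Prop :=
  ∀ γ : ℝ, 0 < γ → ∃ P : ℝ, 0 ≤ P ∧ ∀ (n : ℕ) (H : ℝ), 1 ≤ H → RootQH q n H (P * H ^ γ)

/-- the level of a number: `0` for `t ≤ 1`, `h` for `2^(h-1) < t ≤ 2^h` -/
noncomputable def lv (t : ℝ) : ℕ := ⌈Real.logb 2 t⌉₊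

theorem le_lv {t : ℝ} (ht : 0 ≤ t) : t ≤ 2 ^ (lv t : ℝ) := by
  rcases ht.eq_or_lt with rfl | ht
  · positivity
  · have h1 : Real.logb 2 t ≤ (lv t : ℝ) := Nat.le_ceil _
    calc t = 2 ^ (Real.logb 2 t) := (Real.rpow_logb (by norm_num) (by norm_num) ht).symm
      _ ≤ 2 ^ (lv t : ℝ) := Real.rpow_le_rpow_of_exponent_le (by norm_num) h1

theorem lv_lt {t : ℝ} (ht' : 0 ≤ t) (ht : lv t ≠ 0) : (2 : ℝ) ^ ((lv t : ℝ) - 1) < t := by
  have h0 : 0 < Real.logb 2 t := by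
    by_contra h
    exact ht (Nat.ceil_eq_zero.2 (not_lt.1 h))
  have ht0 : 0 < t := by
    rcases ht'.eq_or_lt with rfl | h
    · simp at h0
    · exact h
  have h1 : (lv t : ℝ) - 1 < Real.logb 2 t := by
    have := Nat.ceil_lt_add_one h0.le
    rw [lv]
    linarith
  calc (2 : ℝ) ^ ((lv t : ℝ) - 1) < 2 ^ (Real.logb 2 t) :=
        Real.rpow_lt_rpow_of_exponent_lt (by norm_num) h1
    _ = t := Real.rpow_logb (by norm_num) (by norm_num) ht0

/-- normalisation of the level sets -/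
noncomputable def an (q q₁ : ℝ) (h : ℕ) : ℝ := 2 ^ ((1 - (h : ℝ)) * ((q₁ - q) / q))

theorem an_pos (q q₁ : ℝ) (h : ℕ) : 0 < an q q₁ h := Real.rpow_pos_of_pos (by norm_num) _

theorem an_pow {q q₁ : ℝ} (hq : 0 < q) (h : ℕ) : an q q₁ h ^ q = 2 ^ ((1 - (h : ℝ)) * (q₁ - q)) := by
  rw [an, ← Real.rpow_mul (by norm_num)]
  congr 1
  field_simp

/-- the size of the level sets -/
theorem level_pow {q q₁ : ℝ} (hq : 0 < q) (hq₁ : q < q₁) {t : ℝ} (ht : 0 ≤ t) (h : lv t ≠ 0) :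
    t ^ q ≤ an q q₁ (lv t) ^ q * t ^ q₁ := by
  have h1 := lv_lt ht h
  have ht0 : 0 < t := lt_trans (Real.rpow_pos_of_pos (by norm_num) _) h1
  have h2 : t ^ q = t ^ (q - q₁) * t ^ q₁ := by
    rw [← Real.rpow_add ht0]
    congr 1
    ring
  rw [h2, an_pow hq]
  refine mul_le_mul_of_nonneg_right ?_ (Real.rpow_nonneg ht _)
  refine (Real.rpow_le_rpow_of_nonpos (Real.rpow_pos_of_pos (by norm_num) _) h1.le
    (by linarith)).trans (le_of_eq ?_)
  rw [← Real.rpow_mul (by norm_num)]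
  congr 1
  ring

/-- the ratio of the series of the levels -/
noncomputable def rt (q q₁ γ : ℝ) : ℝ := 2 ^ (-((q₁ - q) / q) + q₁ / q * γ)

/-- the constant of the decomposition in levels -/
noncomputable def cc (q q₁ γ : ℝ) : ℝ := 2 ^ ((q₁ - q) / q) * (1 - rt q q₁ γ)⁻¹

theorem rt_lt_one {q q₁ γ : ℝ} (hq : 0 < q) (hγ : γ * q₁ < q₁ - q) : rt q q₁ γ < 1 := by
  refine Real.rpow_lt_one_of_one_lt_of_neg (by norm_num) ?_
  have : -((q₁ - q) / q) + q₁ / q * γ = (γ * q₁ - (q₁ - q)) / q := by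
    field_simp
    ring
  rw [this]
  exact div_neg_of_neg_of_pos (by linarith) hq

theorem rt_pos (q q₁ γ : ℝ) : 0 < rt q q₁ γ := Real.rpow_pos_of_pos (by norm_num) _

theorem cc_pos {q q₁ γ : ℝ} (hq : 0 < q) (hγ : γ * q₁ < q₁ - q) : 0 < cc q q₁ γ :=
  mul_pos (Real.rpow_pos_of_pos (by norm_num) _) (inv_pos.2 (by linarith [rt_lt_one hq hγ]))

theorem sum_levels {q q₁ γ : ℝ} (hq : 0 < q) (hγ : γ * q₁ < q₁ - q) (m : ℕ) :
    ∑ h ∈ range m, an q q₁ h * (2 : ℝ) ^ ((h : ℝ) * (q₁ / q) * γ) ≤ cc q q₁ γ := by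
  have h1 : ∀ h ∈ range m, an q q₁ h * (2 : ℝ) ^ ((h : ℝ) * (q₁ / q) * γ) =
      2 ^ ((q₁ - q) / q) * rt q q₁ γ ^ h := by
    intro h _
    rw [an, rt, ← Real.rpow_add (by norm_num), ← Real.rpow_mul_natCast (by norm_num),
      ← Real.rpow_add (by norm_num)]
    congr 1
    ring
  rw [sum_congr rfl h1, ← mul_sum, cc]
  refine mul_le_mul_of_nonneg_left ?_ (Real.rpow_nonneg (by norm_num) _)
  have h2 := rt_lt_one hq hγ
  rw [← tsum_geometric_of_lt_one (rt_pos _ _ _).le h2]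
  exact (summable_geometric_of_lt_one (rt_pos _ _ _).le h2).sum_le_tsum _
    fun _ _ => pow_nonneg (rt_pos _ _ _).le _

/-- multilinear expansion -/
theorem loc1_expand (k : ℕ) (u : Fin 4 → ℤ) (m : ℕ) (f : Fin 4 → ℤ → ℝ)
    (g : ℕ → Fin 4 → ℤ → ℝ) (h : ∀ j x, f j x = ∑ i ∈ range m, g i j x) :
    loc1 k u f = ∑ p ∈ Fintype.piFinset (fun _ : Fin 4 => range m),
      loc1 k u (fun j => g (p j) j) := by
  unfold loc1
  rw [← mul_sum, sum_comm]
  congr 1
  refine sum_congr rfl fun x _ => ?_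
  rw [← mul_sum]
  congr 1
  have h1 := prod_univ_sum (fun _ : Fin 4 => range m) (fun j i => g i j (ell j (pt k u x)))
  rw [← h1]
  exact prod_congr rfl fun j _ => h j _

theorem one_le_prod_real {ι : Type*} (s : Finset ι) (f : ι → ℝ) (h : ∀ i, 1 ≤ f i) :
    1 ≤ ∏ i ∈ s, f i :=
  prod_induction _ (fun x => 1 ≤ x) (fun _ _ => one_le_mul_of_one_le_of_one_le) le_rfl
    fun i _ => h i

/-- **Decomposition in level sets.** -/
theorem rootQ_of_rootQH {q q₁ γ : ℝ} (hq : 0 < q) (hq₁ : q < q₁)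
    (hγ : γ * q₁ < q₁ - q) {n : ℕ} {P : ℝ} (hP : 0 ≤ P)
    (H : ∀ H : ℝ, 1 ≤ H → RootQH q n H (P * H ^ γ)) : RootQ q₁ n (cc q q₁ γ ^ 4 * P) := by
  classical
  intro f hf o ho K hK V 𝒩 h𝒩 hanc hav
  -- all the levels
  obtain ⟨m, hm⟩ : ∃ m : ℕ, ∀ j x, f j x ≠ 0 → lv |f j x| < m := by
    refine ⟨(univ.sup fun j => (hf j).toFinset.sup fun x => lv |f j x|) + 1, ?_⟩
    intro j x hx
    have h1 : lv |f j x| ≤ (hf j).toFinset.sup fun x => lv |f j x| :=
      le_sup (f := fun x => lv |f j x|) (by simpa using hx)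
    have h2 : ((hf j).toFinset.sup fun x => lv |f j x|) ≤
        univ.sup fun j => (hf j).toFinset.sup fun x => lv |f j x| :=
      le_sup (f := fun j => (hf j).toFinset.sup fun x => lv |f j x|) (mem_univ j)
    omega
  set g : ℕ → Fin 4 → ℤ → ℝ := fun i j x => if lv |f j x| = i then f j x else 0 with hg
  have hsum : ∀ j x, f j x = ∑ i ∈ range m, g i j x := by
    intro j x
    simp only [hg]
    rw [sum_ite_eq]
    by_cases hx : f j x = 0
    · simp [hx]
    · rw [if_pos (mem_range.2 (hm j x hx))]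
  -- one choice of the levels
  have hone : ∀ p : Fin 4 → ℕ, ∑ N ∈ 𝒩, ((4 : ℝ) ^ N.1)⁻¹ *
      |loc1 N.1 (nn o N.2 0 0) (fun j => g (p j) j)| ≤
      (∏ j, an q q₁ (p j) * (2 : ℝ) ^ ((p j : ℝ) * (q₁ / q) * γ)) * (P * 2 ^ K) := by
    intro p
    set G : Fin 4 → ℤ → ℝ := fun j x => (an q q₁ (p j))⁻¹ * g (p j) j x with hG
    set Hp : ℝ := ∏ j, (2 : ℝ) ^ ((p j : ℝ) * (q₁ / q)) with hHp
    have hq₁0 : 0 < q₁ := hq.trans hq₁
    have hfac : ∀ j, 1 ≤ (2 : ℝ) ^ ((p j : ℝ) * (q₁ / q)) := fun j =>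
      Real.one_le_rpow (by norm_num) (by positivity)
    have hHp1 : 1 ≤ Hp := one_le_prod_real _ _ hfac
    have hle : ∀ j, (2 : ℝ) ^ ((p j : ℝ) * (q₁ / q)) ≤ Hp := by
      intro j
      rw [hHp, ← mul_prod_erase univ _ (mem_univ j)]
      exact le_mul_of_one_le_right (by positivity) (one_le_prod_real _ _ hfac)
    -- the height
    have hh : ∀ j x, |G j x| ≤ Hp := by
      intro j x
      simp only [hG, hg]
      split_ifs with h
      · rw [abs_mul, abs_of_pos (inv_pos.2 (an_pos _ _ _))]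
        refine le_trans ?_ (hle j)
        rw [inv_mul_le_iff₀ (an_pos _ _ _)]
        refine (le_lv (abs_nonneg _)).trans ?_
        rw [h, an, ← Real.rpow_add (by norm_num)]
        refine Real.rpow_le_rpow_of_exponent_le (by norm_num) ?_
        have : (1 - (p j : ℝ)) * ((q₁ - q) / q) + (p j : ℝ) * (q₁ / q) = (q₁ - q) / q + p j := by
          field_simp
          ring
        rw [this]
        have : 0 ≤ (q₁ - q) / q := div_nonneg (by linarith) hq.le
        linarith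
      · rw [mul_zero, abs_zero]
        linarith
    -- the averages
    have hGq : ∀ N ∈ 𝒩, ∀ j, ∑ y ∈ W N.1 N.2, |G j y| ^ q ≤ 2 ^ (N.1 + 5) := by
      intro N hN j
      by_cases hpj : p j = 0
      · -- level 0
        have h1 : ∀ y ∈ W N.1 N.2, |G j y| ^ q ≤ 1 := by
          intro y _
          refine Real.rpow_le_one (abs_nonneg _) ?_ hq.le
          simp only [hG, hg]
          split_ifs with h
          · rw [abs_mul, abs_of_pos (inv_pos.2 (an_pos _ _ _)), inv_mul_le_iff₀ (an_pos _ _ _),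
              mul_one]
            refine (le_lv (abs_nonneg _)).trans ?_
            rw [h, an, hpj]
            refine Real.rpow_le_rpow_of_exponent_le (by norm_num) ?_
            have : 0 ≤ (q₁ - q) / q := div_nonneg (by linarith) hq.le
            simpa using this
          · rw [mul_zero, abs_zero]
            exact zero_le_one
        refine (sum_le_sum h1).trans ?_
        rw [sum_const, card_W, nsmul_eq_mul, mul_one]
        push_cast
        exact le_rfl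
      · refine le_trans ?_ (hav N hN j)
        refine sum_le_sum fun y _ => ?_
        simp only [hG, hg]
        split_ifs with h
        · rw [abs_mul, abs_of_pos (inv_pos.2 (an_pos _ _ _)),
            Real.mul_rpow (inv_pos.2 (an_pos _ _ _)).le (abs_nonneg _),
            Real.inv_rpow (an_pos _ _ _).le,
            inv_mul_le_iff₀ (Real.rpow_pos_of_pos (an_pos _ _ _) _)]
          have h2 := level_pow hq hq₁ (abs_nonneg (f j y)) (by rw [h]; exact hpj)
          rw [h] at h2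
          exact h2
        · rw [mul_zero, abs_zero, Real.zero_rpow hq.ne']
          exact Real.rpow_nonneg (abs_nonneg _) _
    -- the support
    have hGs : ∀ j, (Function.support (G j)).Finite := by
      intro j
      refine (hf j).subset fun x hx => ?_
      simp only [Function.mem_support] at hx ⊢
      intro h0
      apply hx
      simp only [hG, hg, h0, ite_self, mul_zero]
    have hmain := H Hp hHp1 G hGs o ho K hK V 𝒩 h𝒩 hanc hh hGq
    -- back
    have hfg : ∀ k v, |loc1 k (nn o v 0 0) (fun j => g (p j) j)| =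
        (∏ j, an q q₁ (p j)) * |loc1 k (nn o v 0 0) G| := by
      intro k v
      have h1 : loc1 k (nn o v 0 0) (fun j => g (p j) j) =
          loc1 k (nn o v 0 0) (fun j x => an q q₁ (p j) * G j x) := by
        congr 1
        funext j x
        simp only [hG]
        rw [mul_inv_cancel_left₀ (an_pos _ _ _).ne']
      rw [h1, loc1_smul, abs_mul, abs_of_pos (prod_pos fun j _ => an_pos _ _ _)]
    have h2 : ∑ N ∈ 𝒩, ((4 : ℝ) ^ N.1)⁻¹ * |loc1 N.1 (nn o N.2 0 0) (fun j => g (p j) j)| =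
        (∏ j, an q q₁ (p j)) * ∑ N ∈ 𝒩, ((4 : ℝ) ^ N.1)⁻¹ * |loc1 N.1 (nn o N.2 0 0) G| := by
      rw [mul_sum]
      refine sum_congr rfl fun N _ => ?_
      rw [hfg]
      ring
    rw [h2]
    refine (mul_le_mul_of_nonneg_left hmain (prod_nonneg fun j _ => (an_pos _ _ _).le)).trans
      (le_of_eq ?_)
    have h3 : Hp ^ γ = ∏ j, (2 : ℝ) ^ ((p j : ℝ) * (q₁ / q) * γ) := by
      rw [hHp, ← Real.finsetProd_rpow _ _ fun j _ => Real.rpow_nonneg (by norm_num) _]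
      refine prod_congr rfl fun j _ => ?_
      rw [← Real.rpow_mul (by norm_num)]
    rw [h3, prod_mul_distrib]
    ring
  -- the sum
  have hexp : ∀ N ∈ 𝒩, ((4 : ℝ) ^ N.1)⁻¹ * |loc1 N.1 (nn o N.2 0 0) f| ≤
      ∑ p ∈ Fintype.piFinset (fun _ : Fin 4 => range m),
        ((4 : ℝ) ^ N.1)⁻¹ * |loc1 N.1 (nn o N.2 0 0) (fun j => g (p j) j)| := by
    intro N _
    rw [loc1_expand N.1 (nn o N.2 0 0) m f g hsum, ← mul_sum]
    exact mul_le_mul_of_nonneg_left (abs_sum_le_sum_abs _ _) (by positivity)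
  refine (sum_le_sum hexp).trans ?_
  rw [sum_comm]
  refine (sum_le_sum fun p _ => hone p).trans ?_
  rw [← sum_mul]
  have hprod := prod_univ_sum (fun _ : Fin 4 => range m)
    (fun (_ : Fin 4) (i : ℕ) => an q q₁ i * (2 : ℝ) ^ ((i : ℝ) * (q₁ / q) * γ))
  rw [← hprod, prod_const, card_univ, Fintype.card_fin, mul_assoc]
  refine mul_le_mul_of_nonneg_right ?_ (by positivity)
  exact pow_le_pow_left₀ (sum_nonneg fun i _ => mul_nonneg (an_pos _ _ _).le
    (Real.rpow_nonneg (by norm_num) _)) (sum_levels hq hγ m) 4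

/-- root estimates for bounded functions give root estimates for `L^q₁` sizes, `q₁ > q` -/
theorem rootQ_of_rootG {q q₁ : ℝ} (hq : 0 < q) (hq₁ : q < q₁) (H : RootG q) :
    ∃ P : ℝ, 0 ≤ P ∧ ∀ n, RootQ q₁ n P := by
  have hq₁0 : 0 < q₁ := hq.trans hq₁
  obtain ⟨P, hP, h⟩ := H ((q₁ - q) / (2 * q₁)) (div_pos (by linarith) (by linarith))
  have hγ : (q₁ - q) / (2 * q₁) * q₁ < q₁ - q := by
    have : (q₁ - q) / (2 * q₁) * q₁ = (q₁ - q) / 2 := by
      field_simp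
    rw [this]
    linarith
  refine ⟨cc q q₁ ((q₁ - q) / (2 * q₁)) ^ 4 * P,
    mul_nonneg (pow_nonneg (cc_pos hq hγ).le _) hP, fun n => ?_⟩
  exact rootQ_of_rootQH hq hq₁ hγ hP (h n)

/-- **The trilinear Hilbert transform is bounded `L⁴ × L⁴ × L⁴ → L^{4/3}`**, from root estimates
for bounded functions -/
theorem bounded_444_of_rootG {q : ℝ} (hq : 0 < q) (hq4 : q < 4) (H : RootG q) :
    BoundedAt 4 4 4 (4 / 3) := by
  obtain ⟨P, hP, h⟩ := rootQ_of_rootG hq (show q < (q + 4) / 2 by linarith) H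
  exact bounded_444 (show 0 < (q + 4) / 2 by linarith) (by linarith) hP h

/-- the general form -/
theorem bounded_of_rootG {q q₁ : ℝ} (hq : 0 < q) (hq₁ : q < q₁) (H : RootG q)
    {p₁ p₂ p₃ r : ℝ≥0∞} (h : IsHolderTuple p₁ p₂ p₃ r)
    (t₁ : p₁ ≠ ∞) (t₂ : p₂ ≠ ∞) (t₃ : p₃ ≠ ∞) (hr : 1 < r)
    (hq₁' : (p₁⁻¹).toReal * q₁ < 1) (hq₂ : (p₂⁻¹).toReal * q₁ < 1)
    (hq₃ : (p₃⁻¹).toReal * q₁ < 1) (hqr : (1 - (r⁻¹).toReal) * q₁ < 1) :
    BoundedAt p₁ p₂ p₃ r := by
  obtain ⟨P, hP, h'⟩ := rootQ_of_rootG hq hq₁ H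
  exact bounded_of_rootQ (hq.trans hq₁) hP h' h t₁ t₂ t₃ hr hq₁' hq₂ hq₃ hqr

end Vale.Agent.P141.H337
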