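import Vale.Agent.P141.H379.Exc
import Vale.Agent.P141.PL.H318.Sys1

/-!
# P141, line END: the exceptional cells of the local mass of the births

`lms t r nr m k y`: the local mass at the cell `(k, y)`, the sum of the masses `m j` of the births
`j` of scale `r j ≥ k` which are near the point `y` (`nr j y`; constant on the cells of the scale
`r j`).

* `lms_const`, `lms_anti`: constant on cells, increasing downwards;
* `Tm`: the maximal cells with local mass larger than `lam`; `tops_m`: their number of points is at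
  most `lam⁻¹ ∑ m j * #{near points}`;
* `T4_mass_gen`, `T4_mass_box`, `T4_mass`: the total of the nodes with large local mass;
* `nrc`, `card_nrc`: the concrete nearness of a cube.
-/

namespace Vale.Agent.P141.H337

open Finset
open Vale.Agent.P141.H315 Vale.Agent.P141.H347 Vale.Agent.P141.H8 Vale.Agent.P141.H935
open Vale.Agent.P141.H998 Vale.Agent.P141.H610
open Vale.Agent.P141.PL.H318 (csz el_diff)
open Vale.Agent.P141.PL.H95 (gr mem_gr card_gr)
open Vale.Agent.P141.PL.H315 (cube3)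
open Vale.Agent.P141.PL (Pt el)
open Vale.Agent.P141.PL.H855 (CBlk0 CSlot0 N4 TR T4_toNV)

noncomputable section

open scoped Classical

section gen

variable {X α ι : Type*} {g : Grid X}

/-- the local mass -/
def lms (t : Finset ι) (r : ι → ℕ) (nr : ι → X → Prop) (m : ι → ℝ) (k : ℕ) (y : X) : ℝ :=
  ∑ j ∈ t, if k ≤ r j ∧ nr j y then m j else 0

variable {t : Finset ι} {r : ι → ℕ} {nr : ι → X → Prop} {m : ι → ℝ}

theorem lms_nonneg (hm : ∀ j ∈ t, 0 ≤ m j) (k : ℕ) (y : X) : 0 ≤ lms t r nr m k y :=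
  sum_nonneg fun j hj => by split_ifs; exacts [hm j hj, le_rfl]

theorem lms_const (hn : ∀ j ∈ t, ∀ y z, z ∈ g.cube (r j) y → (nr j z ↔ nr j y)) {k : ℕ} {y z : X}
    (h : z ∈ g.cube k y) : lms t r nr m k z = lms t r nr m k y := by
  unfold lms
  refine sum_congr rfl fun j hj => ?_
  by_cases hk : k ≤ r j
  · have h1 := hn j hj y z (g.cube_subset hk (g.mem (r j) y) h)
    by_cases h2 : nr j y
    · rw [if_pos ⟨hk, h1.2 h2⟩, if_pos ⟨hk, h2⟩]
    · rw [if_neg fun h3 => h2 (h1.1 h3.2), if_neg fun h3 => h2 h3.2]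
  · rw [if_neg fun h3 => hk h3.1, if_neg fun h3 => hk h3.1]

theorem lms_anti (hm : ∀ j ∈ t, 0 ≤ m j) {k k' : ℕ} (h : k ≤ k') (y : X) :
    lms t r nr m k' y ≤ lms t r nr m k y := by
  unfold lms
  refine sum_le_sum fun j hj => ?_
  by_cases h1 : k' ≤ r j ∧ nr j y
  · rw [if_pos h1, if_pos ⟨h.trans h1.1, h1.2⟩]
  · rw [if_neg h1]
    split_ifs
    · exact hm j hj
    · exact le_rfl

/-- births read at a cell are paid by the local mass -/
theorem sum_le_lms (hm : ∀ j ∈ t, 0 ≤ m j) {S : Finset ι} (hS : S ⊆ t) {k : ℕ} {y : X}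
    (h : ∀ j ∈ S, k ≤ r j ∧ nr j y) : ∑ j ∈ S, m j ≤ lms t r nr m k y := by
  unfold lms
  have e : ∑ j ∈ S, m j = ∑ j ∈ S, if k ≤ r j ∧ nr j y then m j else 0 :=
    sum_congr rfl fun j hj => by rw [if_pos (h j hj)]
  rw [e]
  exact sum_le_sum_of_subset_of_nonneg hS fun j hj _ => by
    split_ifs; exacts [hm j hj, le_rfl]

/-- a maximal cell with large local mass -/
def Tm (t : Finset ι) (r : ι → ℕ) (nr : ι → X → Prop) (m : ι → ℝ) (L : ℕ) (lam : ℝ) (i : ℕ)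
    (y : X) : Prop :=
  (i ≤ L ∧ lam < lms t r nr m i y) ∧ ∀ j, i < j → j ≤ L → ¬ lam < lms t r nr m j y

variable {L : ℕ} {lam : ℝ}

theorem tm_const (hn : ∀ j ∈ t, ∀ y z, z ∈ g.cube (r j) y → (nr j z ↔ nr j y)) (i : ℕ) (y z : X)
    (h : z ∈ g.cube i y) : Tm t r nr m L lam i z ↔ Tm t r nr m L lam i y := by
  unfold Tm
  rw [lms_const hn h]
  refine and_congr_right fun _ => forall_congr' fun j => forall_congr' fun hj => ?_
  rw [lms_const hn (g.cube_subset hj.le (g.mem j y) h)]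

theorem tm_uniq {i j : ℕ} {y : X} (h1 : Tm t r nr m L lam i y) (h2 : Tm t r nr m L lam j y) :
    i = j := by
  rcases lt_trichotomy i j with h | h | h
  · exact absurd h2.1.2 (h1.2 j h h2.1.1)
  · exact h
  · exact absurd h1.1.2 (h2.2 i h h1.1.1)

/-- there is a maximal cell above a cell with large local mass -/
theorem tm_top {k : ℕ} {y : X} (hk : k ≤ L) (h : lam < lms t r nr m k y) :
    ∃ i, k ≤ i ∧ i ≤ L ∧ Tm t r nr m L lam i y := by
  set s := Nat.findGreatest (fun i => lam < lms t r nr m i y) L with hs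
  have h1 : lam < lms t r nr m s y :=
    Nat.findGreatest_spec (P := fun i => lam < lms t r nr m i y) hk h
  have h2 : k ≤ s := Nat.le_findGreatest hk h
  refine ⟨s, h2, Nat.findGreatest_le L, ⟨Nat.findGreatest_le L, h1⟩, fun j hj hjL hbj => ?_⟩
  have h3 : j ≤ s := Nat.le_findGreatest hjL hbj
  omega

/-- the region of the cells with small local mass -/
theorem rgn_small (hm : ∀ j ∈ t, 0 ≤ m j)
    (hn : ∀ j ∈ t, ∀ y z, z ∈ g.cube (r j) y → (nr j z ↔ nr j y))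
    {gd ud : ℕ → X → Prop} {x : X} (h : Rgn g gd L x ud) :
    Rgn g gd L x (An ud fun k y => ¬ lam < lms t r nr m k y) where
  const k y y' hy' := by
    show ud k y' ∧ ¬ lam < lms t r nr m k y' ↔ ud k y ∧ ¬ lam < lms t r nr m k y
    rw [lms_const hn hy', h.const k y y' hy']
  up k hk y := by
    rintro ⟨h1, h2⟩
    refine ⟨h.up k hk y h1, fun h3 => h2 (h3.trans_le (lms_anti hm (Nat.le_succ k) y))⟩
  bel k y h1 := h.bel k y h1.1
  sub k y h1 := h.sub k y h1.1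

/-- **the packing of the maximal cells with large local mass** -/
theorem tops_m (hm : ∀ j ∈ t, 0 ≤ m j) (hlam : 0 < lam) (ud : ℕ → X → Prop) (S : Finset X) :
    ∑ i ∈ range (L + 1), ∑ z ∈ S, (if ud i z ∧ Tm t r nr m L lam i z then (1 : ℝ) else 0) ≤
      lam⁻¹ * ∑ j ∈ t, m j * (S.filter fun z => nr j z).card := by
  rw [sum_comm]
  have h1 : ∀ z ∈ S, ∑ i ∈ range (L + 1),
      (if ud i z ∧ Tm t r nr m L lam i z then (1 : ℝ) else 0) ≤
      lam⁻¹ * ∑ j ∈ t, if nr j z then m j else 0 := by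
    intro z _
    have h0 : 0 ≤ lam⁻¹ * ∑ j ∈ t, if nr j z then m j else 0 :=
      mul_nonneg (inv_nonneg.2 hlam.le)
        (sum_nonneg fun j hj => by split_ifs; exacts [hm j hj, le_rfl])
    by_cases h2 : ∃ i ∈ range (L + 1), ud i z ∧ Tm t r nr m L lam i z
    · obtain ⟨i, hi, hu, ht⟩ := h2
      rw [sum_eq_single i]
      · rw [if_pos ⟨hu, ht⟩, ← div_eq_inv_mul, le_div_iff₀ hlam, one_mul]
        refine ht.1.2.le.trans ?_
        unfold lms
        refine sum_le_sum fun j hj => ?_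
        by_cases h3 : nr j z
        · rw [if_pos h3]; split_ifs; exacts [le_rfl, hm j hj]
        · rw [if_neg h3, if_neg fun h4 => h3 h4.2]
      · intro j _ hj
        exact if_neg fun h3 => hj (tm_uniq h3.2 ht)
      · intro h3; exact absurd hi h3
    · push Not at h2
      have e : ∑ i ∈ range (L + 1),
          (if ud i z ∧ Tm t r nr m L lam i z then (1 : ℝ) else 0) = 0 :=
        sum_eq_zero fun i hi => if_neg fun h3 => h2 i hi h3.1 h3.2
      rw [e]; exact h0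
  refine (sum_le_sum h1).trans (le_of_eq ?_)
  rw [← mul_sum, sum_comm]
  congr 1
  refine sum_congr rfl fun j _ => ?_
  rw [← sum_filter, sum_const, nsmul_eq_mul, mul_comm]

/-- **the total of the nodes with large local mass**, abstract total below one cell -/
theorem T4_mass_gen {nv : NV g α} {gd ud : ℕ → X → Prop} {x : X} (h : Rgn g gd L x ud)
    (hm : ∀ j ∈ t, 0 ≤ m j)
    (hn : ∀ j ∈ t, ∀ y z, z ∈ g.cube (r j) y → (nr j z ↔ nr j y))
    (hlam : 0 < lam) {b : ℝ} (hb : 0 ≤ b) {A B C D : ℕ → X → ℝ}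
    (hT : ∀ i ≤ L, ∀ z ∈ g.cube L x, ud i z → T4 nv (Bw g ud i z) A B C D ≤ b * cd g i z) :
    T4 nv (An ud fun k y => lam < lms t r nr m k y) A B C D ≤
      b * (lam⁻¹ * ∑ j ∈ t, m j * ((g.cube L x).filter fun z => nr j z).card) := by
  refine (T4_tops h (fun k y hu hE => tm_top (h.bel k y hu).1 hE) (tm_const hn)
    (fun i hi z hz hu _ => hT i hi z hz hu)).trans ?_
  exact mul_le_mul_of_nonneg_left (tops_m hm hlam ud _) hb

/-- the total of a region = the nodes with large and with small local mass -/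
theorem T4_mass_split {nv : NV g α} {ud : ℕ → X → Prop} (A B C D : ℕ → X → ℝ) :
    T4 nv ud A B C D = T4 nv (An ud fun k y => lam < lms t r nr m k y) A B C D +
      T4 nv (An ud fun k y => ¬ lam < lms t r nr m k y) A B C D :=
  T4_split _ _ _ _ _

end gen

section box

variable {α ι : Type*} {s : ℤ} {t : Finset ι} {r : ι → ℕ} {nr : ι → ℤ → Prop} {m : ι → ℝ}

/-- **the nodes with large local mass from the black box**: any four moving slots -/
theorem T4_mass_box {nv : N4 (gr 7 s) α} {gd ud : ℕ → ℤ → Prop} {CP : ℝ} (hCP : 0 ≤ CP)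
    (hbox : BoxHyp nv gd CP) (σ : Equiv.Perm (Fin 4)) {L : ℕ} {x : ℤ}
    (h : Rgn (gr 7 s) gd L x ud) (hm : ∀ j ∈ t, 0 ≤ m j)
    (hn : ∀ j ∈ t, ∀ y z, z ∈ (gr 7 s).cube (r j) y → (nr j z ↔ nr j y))
    {lam : ℝ} (hlam : 0 < lam)
    {A B C D : ℕ → ℤ → ℝ} {a b c d : ℝ} (ha : 0 ≤ a) (hb : 0 ≤ b) (hc : 0 ≤ c) (hd : 0 ≤ d)
    (hA : SlR s gd ud A a) (hB : SlR s gd ud B b) (hC : SlR s gd ud C c)
    (hD : SlR s gd ud D d) :
    T4 (nv.toNV σ) (An ud fun k y => lam < lms t r nr m k y) A B C D ≤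
      CP * (a * b * c * d) / 128 *
        (lam⁻¹ * ∑ j ∈ t, m j * (((gr 7 s).cube L x).filter fun z => nr j z).card) := by
  refine T4_mass_gen h hm hn hlam (by positivity) fun i hi z hz hu => ?_
  have h1 := rgn_bw h hi z
  have h2 : Bw (gr 7 s) ud i z i z := ⟨hu, le_rfl, (gr 7 s).mem i z⟩
  exact T4_of_box hbox σ h1 h2 (hA i z _ h1 (fun _ _ hy => hy.1) h2)
    (hB i z _ h1 (fun _ _ hy => hy.1) h2) (hC i z _ h1 (fun _ _ hy => hy.1) h2)
    (hD i z _ h1 (fun _ _ hy => hy.1) h2)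

/-- **the nodes of END with large local mass**: a moving role slot of size `a`, uniform slot `G1`,
two block slots -/
theorem T4_massM {nv : N4 (gr 7 s) α} {gd ud : ℕ → ℤ → Prop} {CP : ℝ} (hCP : 0 ≤ CP)
    (hbox : BoxHyp nv gd CP) (σ : Equiv.Perm (Fin 4)) {L : ℕ} {x : ℤ}
    (h : Rgn (gr 7 s) gd L x ud) (hm : ∀ j ∈ t, 0 ≤ m j)
    (hn : ∀ j ∈ t, ∀ y z, z ∈ (gr 7 s).cube (r j) y → (nr j z ↔ nr j y))
    {lam : ℝ} (hlam : 0 < lam) {P : ℕ → ℤ → ℝ} {a : ℝ} (ha : 0 ≤ a) (hP : SlR s gd ud P a)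
    {G1 : ℤ → ℝ} {eG : ℝ} (heG : 0 < eG)
    (hG : En (gr 7 s) ud G1 eG) {tt : ℕ → ℤ → ℕ} {F : Fin 2 → ℕ → ℤ → ℝ} {e K : ℝ} (he : 0 < e)
    (hK : 1 ≤ K) (hF : Fam2 (gr 7 s) ud L tt F e K) :
    T4 (nv.toNV σ) (An ud fun k y => lam < lms t r nr m k y) P (st G1) (mv tt (F 0))
        (mv tt (F 1)) ≤
      5400 * CP * (a * √eG * (e * K)) *
        (lam⁻¹ * ∑ j ∈ t, m j * (((gr 7 s).cube L x).filter fun z => nr j z).card) := by
  have h1 := T4_mass_box hCP hbox σ h hm hn hlam ha (by positivity)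
    (by positivity) (by positivity) hP (slR_st heG hG)
    (slR_fam h he hK hF 0) (slR_fam h he hK hF 1)
  refine h1.trans ?_
  have h2 : √(e * K) * √(e * K) = e * K := Real.mul_self_sqrt (by positivity)
  have hS : 0 ≤ lam⁻¹ * ∑ j ∈ t, m j * (((gr 7 s).cube L x).filter fun z => nr j z).card :=
    mul_nonneg (inv_nonneg.2 hlam.le)
      (sum_nonneg fun j hj => mul_nonneg (hm j hj) (Nat.cast_nonneg _))
  refine mul_le_mul_of_nonneg_right ?_ hS
  have h3 : CP * (a * (68 * √eG) * (100 * √(e * K)) * (100 * √(e * K))) / 128 =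
      5312.5 * (CP * (a * √eG * (√(e * K) * √(e * K)))) := by ring
  rw [h3, h2]
  have h4 : 0 ≤ CP * (a * √eG * (e * K)) := by positivity
  nlinarith

/-- **the nodes of END with large local mass**, static role slot `P` -/
theorem T4_mass {nv : N4 (gr 7 s) α} {gd ud : ℕ → ℤ → Prop} {CP : ℝ} (hCP : 0 ≤ CP)
    (hbox : BoxHyp nv gd CP) (σ : Equiv.Perm (Fin 4)) {L : ℕ} {x : ℤ}
    (h : Rgn (gr 7 s) gd L x ud) (hm : ∀ j ∈ t, 0 ≤ m j)
    (hn : ∀ j ∈ t, ∀ y z, z ∈ (gr 7 s).cube (r j) y → (nr j z ↔ nr j y))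
    {lam : ℝ} (hlam : 0 < lam) {P G1 : ℤ → ℝ} {eP eG : ℝ} (heP : 0 < eP)
    (hP : En (gr 7 s) ud P eP) (heG : 0 < eG)
    (hG : En (gr 7 s) ud G1 eG) {tt : ℕ → ℤ → ℕ} {F : Fin 2 → ℕ → ℤ → ℝ} {e K : ℝ} (he : 0 < e)
    (hK : 1 ≤ K) (hF : Fam2 (gr 7 s) ud L tt F e K) :
    T4 (nv.toNV σ) (An ud fun k y => lam < lms t r nr m k y) (st P) (st G1) (mv tt (F 0))
        (mv tt (F 1)) ≤
      5400 * CP * (68 * √eP * √eG * (e * K)) *
        (lam⁻¹ * ∑ j ∈ t, m j * (((gr 7 s).cube L x).filter fun z => nr j z).card) :=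
  T4_massM hCP hbox σ h hm hn hlam (by positivity) (slR_st heP hP) heG hG he hK hF

end box

/-! ### Nearness of a cube -/

/-- the cell of scale `r` of `y` contains a point within `a * 2 ^ r` of the form values of the
cube `(r, q)` -/
def nrc (c : Pt) (c0 : ℕ) (s : ℤ) (a : ℤ) (r : ℕ) (q : Pt) (y : ℤ) : Prop :=
  ∃ w ∈ cube3 r q, ∃ y' ∈ (gr c0 s).cube r y, |el c w - y'| ≤ a * 2 ^ r

theorem nrc_of_le {c : Pt} {c0 : ℕ} {s a : ℤ} {r : ℕ} {q w : Pt} {y y' : ℤ}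
    (hw : w ∈ cube3 r q) (hy : y' ∈ (gr c0 s).cube r y) (h : |el c w - y'| ≤ a * 2 ^ r) :
    nrc c c0 s a r q y := ⟨w, hw, y', hy, h⟩

theorem nrc_mono {c : Pt} {c0 : ℕ} {s a b : ℤ} (hab : a ≤ b) {r : ℕ} {q : Pt} {y : ℤ}
    (h : nrc c c0 s a r q y) : nrc c c0 s b r q y := by
  obtain ⟨w, hw, y', hy', h1⟩ := h
  exact ⟨w, hw, y', hy', h1.trans (mul_le_mul_of_nonneg_right hab (by positivity))⟩

theorem nrc_const {c : Pt} {c0 : ℕ} {s a : ℤ} {r : ℕ} {q : Pt} {y z : ℤ}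
    (h : z ∈ (gr c0 s).cube r y) : nrc c c0 s a r q z ↔ nrc c c0 s a r q y := by
  unfold nrc
  rw [(gr c0 s).eq_of_mem r y z h]

theorem card_nrc {c : Pt} {c0 : ℕ} (hc : csz c ≤ 2 ^ c0) {s a : ℤ} (ha : 0 ≤ a) (r : ℕ) (q : Pt)
    (S : Finset ℤ) :
    ((S.filter fun z => nrc c c0 s a r q z).card : ℝ) ≤ (2 * a + 4 * 2 ^ c0 + 1) * 2 ^ r := by
  have hr : (1 : ℤ) ≤ 2 ^ r := one_le_pow₀ (by norm_num)
  have hc0 : (1 : ℤ) ≤ 2 ^ c0 := one_le_pow₀ (by norm_num)
  have h0 : q ∈ cube3 r q := by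
    rw [Vale.Agent.P141.PL.H315.mem_cube3]
    exact ⟨Vale.Agent.P141.PL.H315.mem_iv.2 rfl, Vale.Agent.P141.PL.H315.mem_iv.2 rfl,
      Vale.Agent.P141.PL.H315.mem_iv.2 rfl⟩
  have hsub : (S.filter fun z => nrc c c0 s a r q z) ⊆
      Icc (el c q - (a + 2 * 2 ^ c0) * 2 ^ r) (el c q + (a + 2 * 2 ^ c0) * 2 ^ r) := by
    intro z hz
    obtain ⟨-, w, hw, y', hy', h1⟩ := mem_filter.1 hz
    have h2 := el_diff (c := c) hw h0
    have h3 : csz c * (2 ^ r - 1) ≤ 2 ^ c0 * 2 ^ r := by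
      have h4 : (0 : ℤ) ≤ 2 ^ r - 1 := by linarith
      have h5 := mul_le_mul_of_nonneg_right hc h4
      nlinarith
    have h4 : |y' - z| ≤ 2 ^ c0 * 2 ^ r := by
      have h5 := mem_gr.1 hy'
      have hp : (0 : ℤ) < 2 ^ (r + c0) := by positivity
      have h6 := Int.emod_add_mul_ediv (y' + s) (2 ^ (r + c0))
      have h7 := Int.emod_add_mul_ediv (z + s) (2 ^ (r + c0))
      have h8 := Int.emod_nonneg (y' + s) hp.ne'
      have h9 := Int.emod_lt_of_pos (y' + s) hp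
      have h10 := Int.emod_nonneg (z + s) hp.ne'
      have h11 := Int.emod_lt_of_pos (z + s) hp
      rw [h5] at h6
      have h12 : (2 : ℤ) ^ (r + c0) = 2 ^ c0 * 2 ^ r := by rw [pow_add, mul_comm]
      rw [abs_le]
      constructor <;> linarith
    have h5 := abs_le.1 h1
    have h6 := abs_le.1 h2
    have h7 := abs_le.1 h4
    rw [mem_Icc]
    constructor
    · nlinarith
    · nlinarith
  have h1 := card_le_card hsub
  rw [Int.card_Icc] at h1
  have h2 : (((el c q + (a + 2 * 2 ^ c0) * 2 ^ r + 1 -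
      (el c q - (a + 2 * 2 ^ c0) * 2 ^ r)).toNat : ℤ) : ℝ) =
      2 * ((a + 2 * 2 ^ c0) * 2 ^ r) + 1 := by
    rw [Int.toNat_of_nonneg]
    · push_cast; ring
    · have : 0 ≤ (a + 2 * 2 ^ c0) * 2 ^ r := by positivity
      linarith
  have h3 : ((S.filter fun z => nrc c c0 s a r q z).card : ℝ) ≤
      2 * ((a + 2 * 2 ^ c0) * 2 ^ r) + 1 := by
    rw [← h2]
    exact_mod_cast h1
  have hr' : (1 : ℝ) ≤ 2 ^ r := one_le_pow₀ (by norm_num)
  nlinarith

end

end Vale.Agent.P141.H337
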