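import Vale.Agent.P141.PL.H315.Export

/-!
# P141, line W: the pair norm for lifts

`s` is uniform (scalar tests on the cubes of scale `k`), `g` is arbitrary.  Along a common edge
`(x2, x3)` the matrix `s (p1 x1 + p2 x2 + p3 x3) g (c0 + q2 x2 + q3 x3)` has a small operator norm
for EVERY `x1`, `c0`.  Only one Cauchy-Schwarz: the shift `(x2 + q3 y, x3 - q2 y)` leaves `g` fixed
and moves `x1` by `m y` in `s`.
-/

namespace Vale.Agent.P141.H337

open Finset Vale.Agent.P141.PL.H315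

noncomputable section

/-- the dyadic interval of scale `k` and index `m` -/
def ivm (k : ℕ) (m : ℤ) : Finset ℤ := Ico (2 ^ k * m) (2 ^ k * m + 2 ^ k)

theorem mem_ivm {k : ℕ} {m x : ℤ} : x ∈ ivm k m ↔ x / 2 ^ k = m := by
  unfold ivm
  have h2 : (0 : ℤ) < 2 ^ k := by positivity
  rw [mem_Ico]
  constructor
  · rintro ⟨h, h'⟩
    refine le_antisymm ?_ ?_
    · exact Int.lt_add_one_iff.mp (Int.ediv_lt_of_lt_mul h2 (by linarith))
    · exact Int.le_ediv_of_mul_le h2 (by linarith)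
  · rintro rfl
    have h3 := Int.mul_ediv_add_emod x (2 ^ k)
    have h4 := Int.emod_nonneg x h2.ne'
    have h5 := Int.emod_lt_of_pos x h2
    constructor <;> linarith

theorem card_ivm (k : ℕ) (m : ℤ) : (ivm k m).card = 2 ^ k := by
  unfold ivm
  rw [Int.card_Ico]
  have : (2 ^ k * m + 2 ^ k - 2 ^ k * m : ℤ) = ((2 ^ k : ℕ) : ℤ) := by push_cast; ring
  rw [this, Int.toNat_natCast]

theorem ivm_eq_iv (k : ℕ) (x : ℤ) : iv k x = ivm k (x / 2 ^ k) := rfl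

theorem ivm_eq_iv' (k : ℕ) (m : ℤ) : ivm k m = iv k (2 ^ k * m) := by
  rw [ivm_eq_iv, Int.mul_ediv_cancel_left _ (by positivity)]

/-- a long interval is the union of the dyadic ones -/
theorem sum_long (k : ℕ) (a b : ℤ) (φ : ℤ → ℝ) :
    ∑ x ∈ Ico (2 ^ k * a) (2 ^ k * b), φ x = ∑ i ∈ Ico a b, ∑ x ∈ ivm k i, φ x := by
  classical
  have h2 : (0 : ℤ) < 2 ^ k := by positivity
  have hmap : ∀ x ∈ Ico (2 ^ k * a) (2 ^ k * b), x / 2 ^ k ∈ Ico a b := by
    intro x hx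
    rw [mem_Ico] at hx ⊢
    exact ⟨(Int.le_ediv_iff_mul_le h2).2 (by linarith), Int.ediv_lt_of_lt_mul h2 (by linarith)⟩
  rw [← sum_fiberwise_of_maps_to hmap]
  refine sum_congr rfl fun i hi => sum_congr ?_ fun _ _ => rfl
  ext x
  rw [mem_filter, mem_ivm, mem_Ico]
  rw [mem_Ico] at hi
  constructor
  · exact fun h => h.2
  · intro h
    refine ⟨?_, h⟩
    have h3 := Int.mul_ediv_add_emod x (2 ^ k)
    have h4 := Int.emod_nonneg x h2.ne'
    have h5 := Int.emod_lt_of_pos x h2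
    rw [h] at h3
    constructor
    · nlinarith
    · have : 2 ^ k * (i + 1) ≤ 2 ^ k * b := mul_le_mul_of_nonneg_left (by omega) h2.le
      linarith

/-- the restriction to an interval -/
def cutI (I : Finset ℤ) (b : ℤ → ℝ) (x : ℤ) : ℝ := if x ∈ I then b x else 0

theorem cutI_of_mem {I : Finset ℤ} {b : ℤ → ℝ} {x : ℤ} (h : x ∈ I) : cutI I b x = b x := if_pos h
theorem cutI_of_not_mem {I : Finset ℤ} {b : ℤ → ℝ} {x : ℤ} (h : x ∉ I) : cutI I b x = 0 :=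
  if_neg h

/-- translation of a sum of a function supported on a small interval -/
theorem sum_shift {I X : Finset ℤ} {φ : ℤ → ℝ} (a : ℤ) (hφ : ∀ x, x ∉ I → φ x = 0)
    (hX : ∀ x ∈ I, x - a ∈ X) : ∑ x ∈ X, φ (x + a) = ∑ x ∈ I, φ x := by
  classical
  symm
  refine sum_of_injOn (fun x => x - a) ?_ ?_ ?_ ?_
  · intro x _ y _ h
    simpa using h
  · intro x hx
    exact_mod_cast hX x hx
  · intro x _ h
    refine hφ _ fun h' => h ⟨x + a, h', ?_⟩
    simp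
  · intro x _
    simp

/-- the sum of squares of a restriction over any set -/
theorem sum_cutI_sq_le (I S : Finset ℤ) (b : ℤ → ℝ) (f : ℤ → ℤ) (hf : Set.InjOn f S) :
    ∑ x ∈ S, cutI I b (f x) ^ 2 ≤ ∑ x ∈ I, b x ^ 2 := by
  classical
  rw [← sum_image (g := f) (f := fun z => cutI I b z ^ 2) hf]
  have h1 : ∑ z ∈ S.image f, cutI I b z ^ 2 = ∑ z ∈ (S.image f).filter (· ∈ I), b z ^ 2 := by
    rw [sum_filter]
    refine sum_congr rfl fun z _ => ?_
    unfold cutI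
    split_ifs <;> simp
  rw [h1]
  refine sum_le_sum_of_subset_of_nonneg ?_ fun _ _ _ => sq_nonneg _
  intro z hz
  exact (mem_filter.1 hz).2

/-- `b` shifted along the points `x1 + m y` -/
def sl (x1 m r : ℤ) (N : ℕ) (b' : ℤ → ℝ) (y' : ℕ) (w : ℤ × ℤ) : ℝ :=
  ∑ y ∈ range N, if w.1 = x1 + m * y then b' (w.2 + r * y) * b' (w.2 + r * y') else 0

theorem sl_at {x1 m r : ℤ} (hm : m ≠ 0) {N : ℕ} (b' : ℤ → ℝ) (y' : ℕ) {y : ℕ} (hy : y < N)
    (x2 : ℤ) : sl x1 m r N b' y' (x1 + m * y, x2) = b' (x2 + r * y) * b' (x2 + r * y') := by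
  unfold sl
  rw [sum_eq_single_of_mem y (mem_range.2 hy)]
  · simp
  · intro z _ hz
    rw [if_neg]
    intro h
    have h1 : m * (y : ℤ) = m * z := by simpa using h
    have h2 := mul_left_cancel₀ hm h1
    exact hz (by exact_mod_cast h2.symm)

theorem sl_off {x1 m r : ℤ} {N : ℕ} (b' : ℤ → ℝ) (y' : ℕ) {w : ℤ × ℤ}
    (h : ∀ y : ℕ, y < N → w.1 ≠ x1 + m * y) : sl x1 m r N b' y' w = 0 := by
  unfold sl
  refine sum_eq_zero fun y hy => if_neg (h y (mem_range.1 hy))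

theorem avg_sl_le {x1 m r : ℤ} (hm : m ≠ 0) (hr : r ≠ 0) {k : ℕ} (b : ℤ → ℝ) (y' : ℕ)
    (j i1 i2 : ℤ) :
    avg (ivm k i1 ×ˢ ivm k i2) (fun w => sl x1 m r (2 ^ k) (cutI (ivm k j) b) y' w ^ 2) ≤
      (avg (ivm k j) fun x => b x ^ 2) ^ 2 := by
  classical
  set b' := cutI (ivm k j) b with hb'
  set B : ℝ := ∑ x ∈ ivm k j, b x ^ 2 with hB
  have hB0 : 0 ≤ B := sum_nonneg fun _ _ => sq_nonneg _
  -- for a fixed `x2`
  have h1 : ∀ x2 : ℤ, ∑ x ∈ ivm k i1, sl x1 m r (2 ^ k) b' y' (x, x2) ^ 2 ≤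
      b' (x2 + r * y') ^ 2 * B := by
    intro x2
    have h2 : ∑ x ∈ ivm k i1, sl x1 m r (2 ^ k) b' y' (x, x2) ^ 2 ≤
        ∑ y ∈ range (2 ^ k), (b' (x2 + r * y) * b' (x2 + r * y')) ^ 2 := by
      have h3 : ∀ x ∈ ivm k i1, sl x1 m r (2 ^ k) b' y' (x, x2) ^ 2 =
          ∑ y ∈ range (2 ^ k), if x = x1 + m * y then (b' (x2 + r * y) * b' (x2 + r * y')) ^ 2
            else 0 := by
        intro x _
        by_cases hx : ∃ y : ℕ, y < 2 ^ k ∧ x = x1 + m * y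
        · obtain ⟨y, hy, rfl⟩ := hx
          rw [sl_at hm b' y' hy, sum_eq_single_of_mem y (mem_range.2 hy)]
          · simp
          · intro z _ hz
            rw [if_neg]
            intro h
            have h1 : m * (y : ℤ) = m * z := by simpa using h
            have h2 := mul_left_cancel₀ hm h1
            exact hz (by exact_mod_cast h2.symm)
        · push Not at hx
          rw [sl_off b' y' (fun y hy => hx y hy), sum_eq_zero]
          · simp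
          · intro y hy
            exact if_neg (hx y (mem_range.1 hy))
      rw [sum_congr rfl h3, sum_comm]
      refine sum_le_sum fun y _ => ?_
      rw [← sum_filter]
      have hc : ((ivm k i1).filter fun x => x = x1 + m * y).card ≤ 1 :=
        card_le_one.2 fun a ha c hc => by
          rw [mem_filter] at ha hc
          rw [ha.2, hc.2]
      rw [sum_const, nsmul_eq_mul]
      have : (((ivm k i1).filter fun x => x = x1 + m * y).card : ℝ) ≤ 1 := by exact_mod_cast hc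
      nlinarith [sq_nonneg (b' (x2 + r * y) * b' (x2 + r * y'))]
    refine h2.trans ?_
    have h4 : ∀ y ∈ range (2 ^ k), (b' (x2 + r * y) * b' (x2 + r * y')) ^ 2 =
        b' (x2 + r * y') ^ 2 * b' (x2 + r * y) ^ 2 := fun y _ => by ring
    rw [sum_congr rfl h4, ← mul_sum]
    refine mul_le_mul_of_nonneg_left ?_ (sq_nonneg _)
    -- the sum over `y`
    have h5 : ∑ y ∈ range (2 ^ k), b' (x2 + r * y) ^ 2 =
        ∑ z ∈ (range (2 ^ k)).image (fun y : ℕ => (y : ℤ)), b' (x2 + r * z) ^ 2 := by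
      rw [sum_image fun a _ c _ h => by exact_mod_cast h]
    rw [h5]
    refine sum_cutI_sq_le _ _ b (fun z => x2 + r * z) ?_
    intro a _ c _ h
    have h' : r * a = r * c := by simpa using h
    exact mul_left_cancel₀ hr h'
  have h2 : ∑ w ∈ ivm k i1 ×ˢ ivm k i2, sl x1 m r (2 ^ k) b' y' w ^ 2 ≤ B ^ 2 := by
    rw [sum_product_right]
    refine (sum_le_sum fun x2 _ => h1 x2).trans ?_
    rw [← sum_mul, sq]
    refine mul_le_mul_of_nonneg_right ?_ hB0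
    exact sum_cutI_sq_le _ _ b (fun z => z + r * y') (fun a _ c _ h => by simpa using h)
  unfold avg
  rw [card_product, card_ivm, card_ivm, card_ivm, mul_pow, ← hB]
  push_cast
  rw [mul_inv, ← sq]
  exact mul_le_mul_of_nonneg_left h2 (by positivity)

theorem mx_sl_le {x1 m r : ℤ} (hm : m ≠ 0) {k : ℕ} (b : ℤ → ℝ) (y' : ℕ) (j i1 i2 : ℤ) :
    mx (ivm k i1 ×ˢ ivm k i2) (sl x1 m r (2 ^ k) (cutI (ivm k j) b) y') ≤ mx (ivm k j) b ^ 2 := by
  have hM := mx_nonneg (ivm k j) b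
  have hb : ∀ x, |cutI (ivm k j) b x| ≤ mx (ivm k j) b := by
    intro x
    by_cases hx : x ∈ ivm k j
    · rw [cutI_of_mem hx]; exact abs_le_mx hx b
    · rw [cutI_of_not_mem hx, abs_zero]; exact hM
  refine mx_le (by positivity) fun w _ => ?_
  by_cases hx : ∃ y : ℕ, y < 2 ^ k ∧ w.1 = x1 + m * y
  · obtain ⟨y, hy, h⟩ := hx
    have e : w = (x1 + m * y, w.2) := Prod.ext h rfl
    rw [e, sl_at hm _ y' hy, abs_mul, sq]
    exact mul_le_mul (hb _) (hb _) (abs_nonneg _) hM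
  · push Not at hx
    rw [sl_off _ y' (fun y hy => hx y hy), abs_zero]
    positivity

theorem Nm_sl_le {e : ℝ} (he0 : 0 ≤ e) (he1 : e ≤ 1) {x1 m r : ℤ} (hm : m ≠ 0) (hr : r ≠ 0)
    {k : ℕ} (b : ℤ → ℝ) (y' : ℕ) (j i1 i2 : ℤ) :
    Nm e (ivm k i1 ×ˢ ivm k i2) (sl x1 m r (2 ^ k) (cutI (ivm k j) b) y') ≤
      Nm e (ivm k j) b ^ 2 := by
  have h1 := avg_sl_le (x1 := x1) (m := m) (r := r) hm hr (k := k) b y' j i1 i2
  have h2 := mx_sl_le (x1 := x1) (m := m) (r := r) hm (k := k) b y' j i1 i2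
  have ha : 0 ≤ avg (ivm k j) fun x => b x ^ 2 := avg_nonneg fun _ _ => sq_nonneg _
  have hM := mx_nonneg (ivm k j) b
  unfold Nm
  rw [mul_pow]
  refine mul_le_mul ?_ ?_ (Real.rpow_nonneg (mx_nonneg _ _) _) (by positivity)
  · refine (Real.rpow_le_rpow (avg_nonneg fun _ _ => sq_nonneg _) h1 (by linarith)).trans
      (le_of_eq ?_)
    rw [← Real.rpow_natCast, ← Real.rpow_mul ha, ← Real.rpow_natCast, ← Real.rpow_mul ha]
    congr 1; push_cast; ring
  · refine (Real.rpow_le_rpow (mx_nonneg _ _) h2 he0).trans (le_of_eq ?_)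
    rw [← Real.rpow_natCast, ← Real.rpow_mul hM, ← Real.rpow_natCast, ← Real.rpow_mul hM]
    congr 1; ring

/-- sum over 729 cubes -/
theorem sum3_le (k : ℕ) (i1 j2 j3 : ℤ) (ψ : ℤ → ℤ → ℤ → ℝ) {M : ℝ}
    (h : ∀ a1 a2 a3 : ℤ, ∑ z1 ∈ ivm k a1, ∑ z2 ∈ ivm k a2, ∑ z3 ∈ ivm k a3, ψ z1 z2 z3 ≤ M) :
    ∑ z1 ∈ Ico (2 ^ k * (i1 - 4)) (2 ^ k * (i1 + 5)), ∑ z2 ∈ Ico (2 ^ k * (j2 - 4)) (2 ^ k * (j2 + 5)),
      ∑ z3 ∈ Ico (2 ^ k * (j3 - 4)) (2 ^ k * (j3 + 5)), ψ z1 z2 z3 ≤ 729 * M := by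
  have card9 : ∀ j : ℤ, (Ico (j - 4) (j + 5)).card = 9 := by
    intro j
    rw [Int.card_Ico]
    have : j + 5 - (j - 4) = 9 := by ring
    rw [this]; rfl
  rw [sum_long]
  have h1 : ∀ a1 ∈ Ico (i1 - 4) (i1 + 5), ∑ z1 ∈ ivm k a1,
      ∑ z2 ∈ Ico (2 ^ k * (j2 - 4)) (2 ^ k * (j2 + 5)),
      ∑ z3 ∈ Ico (2 ^ k * (j3 - 4)) (2 ^ k * (j3 + 5)), ψ z1 z2 z3 ≤ 81 * M := by
    intro a1 _
    rw [sum_comm, sum_long]
    have h2 : ∀ a2 ∈ Ico (j2 - 4) (j2 + 5), ∑ z2 ∈ ivm k a2, ∑ z1 ∈ ivm k a1,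
        ∑ z3 ∈ Ico (2 ^ k * (j3 - 4)) (2 ^ k * (j3 + 5)), ψ z1 z2 z3 ≤ 9 * M := by
      intro a2 _
      rw [sum_comm]
      have h3 : ∑ z1 ∈ ivm k a1, ∑ z2 ∈ ivm k a2,
          ∑ z3 ∈ Ico (2 ^ k * (j3 - 4)) (2 ^ k * (j3 + 5)), ψ z1 z2 z3 =
          ∑ a3 ∈ Ico (j3 - 4) (j3 + 5), ∑ z1 ∈ ivm k a1, ∑ z2 ∈ ivm k a2, ∑ z3 ∈ ivm k a3,
            ψ z1 z2 z3 := by
        rw [sum_comm (s := Ico (j3 - 4) (j3 + 5))]
        refine sum_congr rfl fun z1 _ => ?_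
        rw [sum_comm (s := Ico (j3 - 4) (j3 + 5))]
        exact sum_congr rfl fun z2 _ => sum_long k _ _ _
      rw [h3]
      refine (sum_le_card_nsmul _ _ _ fun a3 _ => h a1 a2 a3).trans (le_of_eq ?_)
      rw [card9, nsmul_eq_mul]; norm_num
    refine (sum_le_card_nsmul _ _ _ h2).trans (le_of_eq ?_)
    rw [card9, nsmul_eq_mul]; push_cast; ring
  refine (sum_le_card_nsmul _ _ _ h1).trans (le_of_eq ?_)
  rw [card9, nsmul_eq_mul]; push_cast; ring

/-- **Pair norm.** -/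
theorem pair_norm {δ e A Λ : ℝ} (hδ : 0 ≤ δ) (he0 : 0 ≤ e) (he1 : e ≤ 1) {k : ℕ}
    {s g : ℤ → ℝ} {p1 p2 p3 q2 q3 m : ℤ} (hm : m * p1 = p2 * q3 - p3 * q2) (hm0 : m ≠ 0)
    (hq2 : q2 ≠ 0) (hq3 : q3 ≠ 0) (bm : |m| ≤ 4) (b2 : |q2| ≤ 4) (b3 : |q3| ≤ 4)
    (htest : ∀ (p : ℤ × ℤ × ℤ) (u : Tri),
      |avg (cube3 k p) (fun q => s (p1 * q.1 + p2 * q.2.1 + p3 * q.2.2) * atm u q)| ≤ wN δ e k p u)
    (hA : 0 ≤ A) (hs : ∀ c0 i2 i3 : ℤ,
      Nm e (ivm k i2 ×ˢ ivm k i3) (fun w => s (c0 + p2 * w.1 + p3 * w.2)) ≤ A)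
    (hΛ : 0 ≤ Λ) (hg : ∀ c0 i2 i3 : ℤ,
      ∑ w ∈ ivm k i2 ×ˢ ivm k i3, g (c0 + q2 * w.1 + q3 * w.2) ^ 2 ≤ 4 ^ k * Λ)
    (x1 c0 j2 j3 : ℤ) (b c : ℤ → ℝ) :
    |∑ x2 ∈ ivm k j2, ∑ x3 ∈ ivm k j3, s (p1 * x1 + p2 * x2 + p3 * x3) *
        g (c0 + q2 * x2 + q3 * x3) * b x2 * c x3| ≤
      1000 * 4 ^ k * Real.sqrt (Λ * δ * A) * (Nm e (ivm k j2) b * Nm e (ivm k j3) c) := by
  classical
  set N : ℕ := 2 ^ k with hN
  have hNR : (N : ℝ) = 2 ^ k := by rw [hN]; push_cast; rfl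
  have hNZ : (N : ℤ) = 2 ^ k := by rw [hN]; push_cast; rfl
  have h2k : (0 : ℤ) < 2 ^ k := by positivity
  have h2kR : (0 : ℝ) < 2 ^ k := by positivity
  set b' := cutI (ivm k j2) b with hb'
  set c' := cutI (ivm k j3) c with hc'
  set T : ℝ := ∑ x2 ∈ ivm k j2, ∑ x3 ∈ ivm k j3, s (p1 * x1 + p2 * x2 + p3 * x3) *
        g (c0 + q2 * x2 + q3 * x3) * b x2 * c x3 with hT
  set i1 : ℤ := x1 / 2 ^ k with hi1
  set X1 : Finset ℤ := Ico (2 ^ k * (i1 - 4)) (2 ^ k * (i1 + 5)) with hX1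
  set X2 : Finset ℤ := Ico (2 ^ k * (j2 - 4)) (2 ^ k * (j2 + 5)) with hX2
  set X3 : Finset ℤ := Ico (2 ^ k * (j3 - 4)) (2 ^ k * (j3 + 5)) with hX3
  -- bounds of the shifts
  have hsh : ∀ r : ℤ, |r| ≤ 4 → ∀ y : ℕ, y < N → -(4 * 2 ^ k) ≤ r * y ∧ r * y ≤ 4 * 2 ^ k := by
    intro r hr y hy
    have hy' : (y : ℤ) ≤ 2 ^ k := by rw [← hNZ]; exact_mod_cast hy.le
    have h0 : (0 : ℤ) ≤ y := Int.natCast_nonneg y
    rw [abs_le] at hr
    constructor <;> nlinarith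
  -- the shifted sum
  set Φ : ℤ → ℤ → ℝ := fun x2 x3 => ∑ y ∈ range N,
    s (p1 * (x1 + m * y) + p2 * x2 + p3 * x3) * (b' (x2 + q3 * y) * c' (x3 + -q2 * y)) with hΦ
  have h1 : ∀ y ∈ range N, T = ∑ x2 ∈ X2, ∑ x3 ∈ X3, g (c0 + q2 * x2 + q3 * x3) *
      (s (p1 * (x1 + m * y) + p2 * x2 + p3 * x3) * (b' (x2 + q3 * y) * c' (x3 + -q2 * y))) := by
    intro y hy
    rw [mem_range] at hy
    have hs3 := hsh (-q2) (by rwa [abs_neg]) y hy
    have hs2 := hsh q3 b3 y hy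
    -- inner
    have hin : ∀ x2, ∑ x3 ∈ X3, g (c0 + q2 * x2 + q3 * x3) *
        (s (p1 * (x1 + m * y) + p2 * x2 + p3 * x3) * (b' (x2 + q3 * y) * c' (x3 + -q2 * y))) =
        ∑ x3 ∈ ivm k j3, g (c0 + q2 * (x2 + q3 * y) + q3 * x3) *
          (s (p1 * x1 + p2 * (x2 + q3 * y) + p3 * x3) * (b' (x2 + q3 * y) * c' x3)) := by
      intro x2
      have := sum_shift (I := ivm k j3) (X := X3) (φ := fun x3 =>
        g (c0 + q2 * (x2 + q3 * y) + q3 * x3) *
          (s (p1 * x1 + p2 * (x2 + q3 * y) + p3 * x3) * (b' (x2 + q3 * y) * c' x3))) (-q2 * y)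
        (fun x hx => by simp only [hc', cutI_of_not_mem hx, mul_zero]) ?_
      · rw [← this]
        refine sum_congr rfl fun x3 _ => ?_
        have e1 : c0 + q2 * (x2 + q3 * y) + q3 * (x3 + -q2 * y) = c0 + q2 * x2 + q3 * x3 := by ring
        have e2 : p1 * x1 + p2 * (x2 + q3 * y) + p3 * (x3 + -q2 * y) =
            p1 * (x1 + m * y) + p2 * x2 + p3 * x3 := by linear_combination (-(y : ℤ)) * hm
        simp only [e1, e2]
      · intro x hx
        unfold ivm at hx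
        rw [mem_Ico] at hx
        rw [hX3, mem_Ico]
        constructor <;> nlinarith
    rw [sum_congr rfl fun x2 _ => hin x2]
    have := sum_shift (I := ivm k j2) (X := X2) (φ := fun x2 =>
        ∑ x3 ∈ ivm k j3, g (c0 + q2 * x2 + q3 * x3) *
          (s (p1 * x1 + p2 * x2 + p3 * x3) * (b' x2 * c' x3))) (q3 * y)
        (fun x hx => by
          refine sum_eq_zero fun x3 _ => ?_
          simp only [hb', cutI_of_not_mem hx, mul_zero, zero_mul]) ?_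
    · rw [this, hT]
      refine sum_congr rfl fun x2 hx2 => sum_congr rfl fun x3 hx3 => ?_
      simp only [hb', hc', cutI_of_mem hx2, cutI_of_mem hx3]
      ring
    · intro x hx
      unfold ivm at hx
      rw [mem_Ico] at hx
      rw [hX2, mem_Ico]
      constructor <;> nlinarith
  have h2 : (N : ℝ) * T = ∑ w ∈ X2 ×ˢ X3, g (c0 + q2 * w.1 + q3 * w.2) * Φ w.1 w.2 := by
    have h3 : (N : ℝ) * T = ∑ y ∈ range N, T := by
      rw [sum_const, card_range, nsmul_eq_mul]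
    rw [h3, sum_congr rfl h1, sum_comm, sum_product]
    refine sum_congr rfl fun x2 _ => ?_
    rw [sum_comm]
    refine sum_congr rfl fun x3 _ => ?_
    rw [hΦ, mul_sum]
  -- Cauchy-Schwarz
  have h3 : ((N : ℝ) * T) ^ 2 ≤ (∑ w ∈ X2 ×ˢ X3, g (c0 + q2 * w.1 + q3 * w.2) ^ 2) *
      ∑ w ∈ X2 ×ˢ X3, Φ w.1 w.2 ^ 2 := by
    rw [h2]
    exact sum_mul_sq_le_sq_mul_sq _ _ _
  -- the first factor
  have h4 : ∑ w ∈ X2 ×ˢ X3, g (c0 + q2 * w.1 + q3 * w.2) ^ 2 ≤ 81 * (4 ^ k * Λ) := by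
    rw [sum_product, hX2, hX3, sum_long]
    have h5 : ∀ i2 ∈ Ico (j2 - 4) (j2 + 5), ∑ x2 ∈ ivm k i2, ∑ x3 ∈ Ico (2 ^ k * (j3 - 4))
        (2 ^ k * (j3 + 5)), g (c0 + q2 * x2 + q3 * x3) ^ 2 ≤ 9 * (4 ^ k * Λ) := by
      intro i2 _
      have h6 : ∑ x2 ∈ ivm k i2, ∑ x3 ∈ Ico (2 ^ k * (j3 - 4))
          (2 ^ k * (j3 + 5)), g (c0 + q2 * x2 + q3 * x3) ^ 2 = ∑ i3 ∈ Ico (j3 - 4) (j3 + 5),
          ∑ w ∈ ivm k i2 ×ˢ ivm k i3, g (c0 + q2 * w.1 + q3 * w.2) ^ 2 := by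
        rw [sum_congr rfl fun x2 _ => sum_long k (j3 - 4) (j3 + 5) _, sum_comm]
        exact sum_congr rfl fun i3 _ => by rw [sum_product]
      rw [h6]
      refine (sum_le_card_nsmul _ _ _ fun i3 _ => hg c0 i2 i3).trans (le_of_eq ?_)
      rw [Int.card_Ico, nsmul_eq_mul]
      have : (j3 + 5 - (j3 - 4)).toNat = 9 := by
        have : j3 + 5 - (j3 - 4) = 9 := by ring
        rw [this]; rfl
      rw [this]; norm_num
    refine (sum_le_card_nsmul _ _ _ h5).trans (le_of_eq ?_)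
    rw [Int.card_Ico, nsmul_eq_mul]
    have : (j2 + 5 - (j2 - 4)).toNat = 9 := by
      have : j2 + 5 - (j2 - 4) = 9 := by ring
      rw [this]; rfl
    rw [this]; ring
  -- the second factor
  set W : ℝ := δ * (Nm e (ivm k j2) b ^ 2 * Nm e (ivm k j3) c ^ 2 * A) with hW
  have hW0 : 0 ≤ W := by
    have := Nm_nonneg e (ivm k j2) b
    have := Nm_nonneg e (ivm k j3) c
    positivity
  have h5 : ∑ w ∈ X2 ×ˢ X3, Φ w.1 w.2 ^ 2 ≤ 2 ^ k * (729 * (8 ^ k * W)) := by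
    -- the test for a fixed `y'`
    set U : ℕ → Tri := fun y' => (sl x1 m q3 N b' y', sl x1 m (-q2) N c' y',
      fun w => s (p1 * (x1 + m * y') + p2 * w.1 + p3 * w.2)) with hU
    have h6 : ∑ w ∈ X2 ×ˢ X3, Φ w.1 w.2 ^ 2 = ∑ y' ∈ range N, ∑ z1 ∈ X1, ∑ z2 ∈ X2, ∑ z3 ∈ X3,
        s (p1 * z1 + p2 * z2 + p3 * z3) * atm (U y') (z1, z2, z3) := by
      have h7 : ∀ w ∈ X2 ×ˢ X3, Φ w.1 w.2 ^ 2 = ∑ y' ∈ range N, ∑ z1 ∈ X1,
          s (p1 * z1 + p2 * w.1 + p3 * w.2) * atm (U y') (z1, w.1, w.2) := by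
        intro w _
        rw [sq, hΦ]
        simp only
        rw [sum_mul_sum, sum_comm]
        refine sum_congr rfl fun y' hy' => ?_
        -- the sum over `z1` only sees the points `x1 + m y`
        have h8 : ∀ z1 ∈ X1, s (p1 * z1 + p2 * w.1 + p3 * w.2) * atm (U y') (z1, w.1, w.2) =
            ∑ y ∈ range N, if z1 = x1 + m * y then
              s (p1 * (x1 + m * y) + p2 * w.1 + p3 * w.2) *
                (b' (w.1 + q3 * y) * c' (w.2 + -q2 * y)) *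
              (s (p1 * (x1 + m * y') + p2 * w.1 + p3 * w.2) *
                (b' (w.1 + q3 * y') * c' (w.2 + -q2 * y'))) else 0 := by
          intro z1 _
          by_cases hx : ∃ y : ℕ, y < N ∧ z1 = x1 + m * y
          · obtain ⟨y, hy, rfl⟩ := hx
            rw [sum_eq_single_of_mem y (mem_range.2 hy)]
            · rw [if_pos rfl]
              simp only [atm, e12, e13, e23, hU]
              rw [sl_at hm0 b' y' hy, sl_at hm0 c' y' hy]
              ring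
            · intro z _ hz
              rw [if_neg]
              intro h
              have h1 : m * (y : ℤ) = m * z := by simpa using h
              have h2 := mul_left_cancel₀ hm0 h1
              exact hz (by exact_mod_cast h2.symm)
          · push Not at hx
            rw [sum_eq_zero]
            · simp only [atm, e12, hU]
              rw [sl_off b' y' (w := (z1, w.1)) (fun y hy => hx y hy)]
              ring
            · intro y hy
              exact if_neg (hx y (mem_range.1 hy))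
        rw [sum_congr rfl h8, sum_comm]
        refine sum_congr rfl fun y hy => ?_
        rw [mem_range] at hy
        have hmem : x1 + m * y ∈ X1 := by
          have hs1 := hsh m bm y hy
          have h3 := Int.mul_ediv_add_emod x1 (2 ^ k)
          have h4 := Int.emod_nonneg x1 h2k.ne'
          have h5 := Int.emod_lt_of_pos x1 h2k
          rw [hX1, mem_Ico]
          rw [← hi1] at h3
          constructor <;> nlinarith
        rw [sum_ite_eq' X1 (x1 + m * y), if_pos hmem]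
      rw [sum_congr rfl h7, sum_comm]
      refine sum_congr rfl fun y' _ => ?_
      rw [sum_comm]
      refine sum_congr rfl fun z1 _ => ?_
      rw [sum_product]
    rw [h6]
    have h7 : ∀ y' ∈ range N, ∑ z1 ∈ X1, ∑ z2 ∈ X2, ∑ z3 ∈ X3,
        s (p1 * z1 + p2 * z2 + p3 * z3) * atm (U y') (z1, z2, z3) ≤ 729 * (8 ^ k * W) := by
      intro y' _
      set ψ : ℤ → ℤ → ℤ → ℝ := fun z1 z2 z3 =>
        s (p1 * z1 + p2 * z2 + p3 * z3) * atm (U y') (z1, z2, z3) with hψ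
      -- one cube
      have h8 : ∀ a1 a2 a3 : ℤ, ∑ z1 ∈ ivm k a1, ∑ z2 ∈ ivm k a2, ∑ z3 ∈ ivm k a3, ψ z1 z2 z3 ≤
          8 ^ k * W := by
        intro a1 a2 a3
        have h9 := htest (2 ^ k * a1, 2 ^ k * a2, 2 ^ k * a3) (U y')
        have hcube : cube3 k (2 ^ k * a1, 2 ^ k * a2, 2 ^ k * a3) =
            ivm k a1 ×ˢ ivm k a2 ×ˢ ivm k a3 := by
          unfold cube3
          simp only [← ivm_eq_iv']
        have hwN : wN δ e k (2 ^ k * a1, 2 ^ k * a2, 2 ^ k * a3) (U y') ≤ W := by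
          unfold wN
          rw [hW, Nm_e12, Nm_e13, Nm_e23]
          simp only [← ivm_eq_iv']
          refine mul_le_mul_of_nonneg_left ?_ hδ
          have n1 := Nm_sl_le he0 he1 (x1 := x1) hm0 hq3 (k := k) b y' j2 a1 a2
          have n2 := Nm_sl_le he0 he1 (x1 := x1) hm0 (neg_ne_zero.2 hq2) (k := k) c y' j3 a1 a3
          have n3 := hs (p1 * (x1 + m * y')) a2 a3
          exact mul_le_mul (mul_le_mul n1 n2 (Nm_nonneg _ _ _) (by positivity)) n3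
            (Nm_nonneg _ _ _) (by positivity)
        have h10 : ∑ z1 ∈ ivm k a1, ∑ z2 ∈ ivm k a2, ∑ z3 ∈ ivm k a3, ψ z1 z2 z3 =
            8 ^ k * avg (cube3 k (2 ^ k * a1, 2 ^ k * a2, 2 ^ k * a3))
              (fun q => s (p1 * q.1 + p2 * q.2.1 + p3 * q.2.2) * atm (U y') q) := by
          unfold avg
          rw [card_cube3, hcube, sum_product]
          push_cast
          rw [mul_inv_cancel_left₀ (by positivity)]
          refine sum_congr rfl fun z1 _ => ?_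
          rw [sum_product]
        rw [h10]
        refine mul_le_mul_of_nonneg_left ?_ (by positivity)
        exact (le_abs_self _).trans (h9.trans hwN)
      exact sum3_le k i1 j2 j3 ψ h8
    refine (sum_le_card_nsmul _ _ _ h7).trans (le_of_eq ?_)
    rw [card_range, nsmul_eq_mul, hNR]
  -- the conclusion
  have h6 : ((N : ℝ) * T) ^ 2 ≤ (81 * (4 ^ k * Λ)) * (2 ^ k * (729 * (8 ^ k * W))) :=
    h3.trans (mul_le_mul h4 h5 (sum_nonneg fun _ _ => sq_nonneg _) (by positivity))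
  have h7 : T ^ 2 ≤ (1000 * 4 ^ k * Real.sqrt (Λ * δ * A) *
      (Nm e (ivm k j2) b * Nm e (ivm k j3) c)) ^ 2 := by
    have e2 : (1000 * 4 ^ k * Real.sqrt (Λ * δ * A) *
        (Nm e (ivm k j2) b * Nm e (ivm k j3) c)) ^ 2 = 1000 ^ 2 * 16 ^ k * (Λ * W) := by
      rw [mul_pow, mul_pow, mul_pow, Real.sq_sqrt (by positivity), hW]
      have : ((4 : ℝ) ^ k) ^ 2 = 16 ^ k := by rw [← pow_mul, mul_comm, pow_mul]; norm_num
      rw [this]; ring
    rw [e2]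
    have e3 : (81 * (4 ^ k * Λ)) * (2 ^ k * (729 * (8 ^ k * W))) =
        (2 ^ k) ^ 2 * (59049 * 16 ^ k * (Λ * W)) := by
      have : (4 : ℝ) ^ k * 8 ^ k = 2 ^ k * 16 ^ k := by rw [← mul_pow, ← mul_pow]; norm_num
      linear_combination (59049 * Λ * 2 ^ k * W) * this
    rw [e3, mul_pow, hNR] at h6
    have h8 : T ^ 2 ≤ 59049 * 16 ^ k * (Λ * W) := le_of_mul_le_mul_left h6 (by positivity)
    refine h8.trans ?_
    have : 0 ≤ 16 ^ k * (Λ * W) := by positivity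
    nlinarith
  refine abs_le_of_sq_le_sq h7 ?_
  have := Nm_nonneg e (ivm k j2) b
  have := Nm_nonneg e (ivm k j3) c
  positivity

end

end Vale.Agent.P141.H337
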