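import Vale.Agent.P141.H337.Ridge

/-!
# P141, line W, end lemma: one box, adding and dropping components
-/

namespace Vale.Agent.P141.H337

open Finset Vale.Agent.P141.PL.H315

noncomputable section

variable {Ω : Type*} [Fintype Ω]

/-- the average over a box -/
def av2 (J2 J3 : Finset ℤ) (f : ℤ → ℤ → ℝ) : ℝ := avg J2 fun x2 => avg J3 fun x3 => f x2 x3

/-- the product kernel -/
def ker (a b : Ω → ℤ → ℝ) (x2 x3 : ℤ) : ℝ := ∑ i, a i x2 * b i x3

theorem av2_ker (a b : Ω → ℤ → ℝ) (Y X : ℤ → ℝ) (J2 J3 : Finset ℤ) :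
    av2 J2 J3 (fun x2 x3 => Y x2 * ker a b x2 x3 * X x3) =
      ∑ i, avg J2 (fun x => Y x * a i x) * avg J3 (fun x => X x * b i x) := by
  unfold av2
  have h1 : ∀ x2 ∈ J2, avg J3 (fun x3 => Y x2 * ker a b x2 x3 * X x3) =
      ∑ i, (Y x2 * a i x2) * avg J3 (fun x => X x * b i x) := by
    intro x2 _
    have h2 : ∀ x3 ∈ J3, Y x2 * ker a b x2 x3 * X x3 =
        ∑ i, (Y x2 * a i x2) * (X x3 * b i x3) := by
      intro x3 _
      unfold ker
      rw [mul_sum, sum_mul]
      exact sum_congr rfl fun i _ => by ring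
    rw [avg_congr h2, avg_sum]
    exact sum_congr rfl fun i _ => avg_smul _ _ _
  rw [avg_congr h1, avg_sum]
  refine sum_congr rfl fun i _ => ?_
  rw [mul_comm, ← avg_smul]
  exact avg_congr fun x _ => by ring

theorem sum_avg_cf (c : Ω → ℤ → ℝ) (w : Ω → ℝ) (f : ℤ → ℝ) (J : Finset ℤ) :
    ∑ i, w i * avg J (fun x => f x * c i x) = avg J (fun x => f x * cf c w x) := by
  have : ∀ i, w i * avg J (fun x => f x * c i x) = avg J (fun x => w i * (f x * c i x)) :=
    fun i => (avg_smul _ _ _).symm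
  rw [sum_congr rfl fun i _ => this i, ← avg_sum]
  refine avg_congr fun x _ => ?_
  unfold cf
  rw [mul_sum]
  exact sum_congr rfl fun i _ => by ring

theorem avg_cf_sq_le (c : Ω → ℤ → ℝ) (w : Ω → ℝ) (J : Finset ℤ) :
    avg J (fun x => cf c w x ^ 2) ≤ n2 w * ∑ i, avg J (fun x => c i x ^ 2) := by
  rw [← avg_sum, ← avg_smul]
  unfold avg
  refine mul_le_mul_of_nonneg_left (sum_le_sum fun x _ => ?_) (by positivity)
  exact sum_mul_sq_le_sq_mul_sq _ _ _

theorem abs_le_sqrt_mul {x a b : ℝ} (h : x ^ 2 ≤ a * b) (ha : 0 ≤ a) :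
    |x| ≤ Real.sqrt a * Real.sqrt b := by
  rw [← Real.sqrt_mul ha, ← Real.sqrt_sq_eq_abs]
  exact Real.sqrt_le_sqrt h

/-- **One box.** -/
theorem box_le {ε τ La Lb : ℝ} (hε : 0 < ε) (a b : Ω → ℤ → ℝ) (Y X : ℤ → ℝ)
    (J2 J3 : Finset ℤ)
    (hop : ∀ p r : Ω → ℝ, |av2 J2 J3 (fun x2 x3 => cf a p x2 * ker a b x2 x3 * cf b r x3)| ≤
      τ * Real.sqrt (avg J2 (fun x => cf a p x ^ 2) + ε * n2 p) *
        Real.sqrt (avg J3 (fun x => cf b r x ^ 2) + ε * n2 r))
    (ha : ∑ i, avg J2 (fun x => a i x ^ 2) ≤ La) (hb : ∑ i, avg J3 (fun x => b i x ^ 2) ≤ Lb) :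
    |av2 J2 J3 (fun x2 x3 => Y x2 * ker a b x2 x3 * X x3)| ≤
      (τ + Real.sqrt (ε * La) + Real.sqrt (ε * Lb) + ε) *
        (Real.sqrt (Rg ε a Y J2) * Real.sqrt (Rg ε b X J3)) := by
  set p := sol ε a Y J2 with hp
  set r := sol ε b X J3 with hr
  set A := Rg ε a Y J2 with hA
  set B := Rg ε b X J3 with hB
  have hA0 : 0 ≤ A := Rg_nonneg hε _ _ _
  have hB0 : 0 ≤ B := Rg_nonneg hε _ _ _
  have eA : A = avg J2 (fun x => cf a p x ^ 2) + ε * n2 p := rfl
  have eB : B = avg J3 (fun x => cf b r x ^ 2) + ε * n2 r := rfl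
  have hLa : 0 ≤ La := (sum_nonneg fun i _ => avg_nonneg fun _ _ => sq_nonneg _).trans ha
  have hLb : 0 ≤ Lb := (sum_nonneg fun i _ => avg_nonneg fun _ _ => sq_nonneg _).trans hb
  have key : av2 J2 J3 (fun x2 x3 => Y x2 * ker a b x2 x3 * X x3) =
      av2 J2 J3 (fun x2 x3 => cf a p x2 * ker a b x2 x3 * cf b r x3) +
      ε * avg J3 (fun x => cf b r x * cf b p x) + ε * avg J2 (fun x => cf a p x * cf a r x) +
      ε ^ 2 * ∑ i, p i * r i := by
    rw [av2_ker, av2_ker]
    have h1 : ∀ i, avg J2 (fun x => Y x * a i x) * avg J3 (fun x => X x * b i x) =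
        avg J2 (fun x => cf a p x * a i x) * avg J3 (fun x => cf b r x * b i x) +
        ε * (p i * avg J3 (fun x => cf b r x * b i x)) +
        ε * (r i * avg J2 (fun x => cf a p x * a i x)) + ε ^ 2 * (p i * r i) := by
      intro i
      rw [sol_spec hε a Y J2 i, sol_spec hε b X J3 i, ← hp, ← hr]
      ring
    rw [sum_congr rfl fun i _ => h1 i, sum_add_distrib, sum_add_distrib, sum_add_distrib,
      ← mul_sum, ← mul_sum, ← mul_sum, sum_avg_cf b p, sum_avg_cf a r]
  have np : n2 p ≤ A / ε := by rw [le_div_iff₀ hε, mul_comm]; exact sol_n2_le hε _ _ _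
  have nr : n2 r ≤ B / ε := by rw [le_div_iff₀ hε, mul_comm]; exact sol_n2_le hε _ _ _
  have t1 := hop p r
  rw [← eA, ← eB] at t1
  have t2 : |avg J3 (fun x => cf b r x * cf b p x)| ≤
      Real.sqrt B * Real.sqrt (A * Lb / ε) := by
    refine abs_le_sqrt_mul ?_ hB0
    refine (avg_mul_sq_le _ _ _).trans ?_
    refine mul_le_mul (sol_avg_le hε b X J3) ?_ (avg_nonneg fun _ _ => sq_nonneg _) hB0
    refine (avg_cf_sq_le b p J3).trans ?_
    calc n2 p * ∑ i, avg J3 (fun x => b i x ^ 2) ≤ A / ε * Lb :=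
          mul_le_mul np hb (sum_nonneg fun i _ => avg_nonneg fun _ _ => sq_nonneg _)
            (by positivity)
      _ = A * Lb / ε := by ring
  have t3 : |avg J2 (fun x => cf a p x * cf a r x)| ≤
      Real.sqrt A * Real.sqrt (B * La / ε) := by
    refine abs_le_sqrt_mul ?_ hA0
    refine (avg_mul_sq_le _ _ _).trans ?_
    refine mul_le_mul (sol_avg_le hε a Y J2) ?_ (avg_nonneg fun _ _ => sq_nonneg _) hA0
    refine (avg_cf_sq_le a r J2).trans ?_
    calc n2 r * ∑ i, avg J2 (fun x => a i x ^ 2) ≤ B / ε * La :=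
          mul_le_mul nr ha (sum_nonneg fun i _ => avg_nonneg fun _ _ => sq_nonneg _)
            (by positivity)
      _ = B * La / ε := by ring
  have t4 : |∑ i, p i * r i| ≤ Real.sqrt (A / ε) * Real.sqrt (B / ε) := by
    refine abs_le_sqrt_mul ?_ (by positivity)
    refine (sum_mul_sq_le_sq_mul_sq _ _ _).trans ?_
    exact mul_le_mul np nr (n2_nonneg _) (by positivity)
  have e2 : ε * (Real.sqrt B * Real.sqrt (A * Lb / ε)) =
      Real.sqrt (ε * Lb) * (Real.sqrt A * Real.sqrt B) := by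
    have h1 : A * Lb / ε = A * (ε * Lb) / ε ^ 2 := by field_simp
    rw [h1, Real.sqrt_div (by positivity), Real.sqrt_sq hε.le, Real.sqrt_mul hA0]
    field_simp
  have e3 : ε * (Real.sqrt A * Real.sqrt (B * La / ε)) =
      Real.sqrt (ε * La) * (Real.sqrt A * Real.sqrt B) := by
    have h1 : B * La / ε = B * (ε * La) / ε ^ 2 := by field_simp
    rw [h1, Real.sqrt_div (by positivity), Real.sqrt_sq hε.le, Real.sqrt_mul hB0]
    field_simp
  have e4 : ε ^ 2 * (Real.sqrt (A / ε) * Real.sqrt (B / ε)) = ε * (Real.sqrt A * Real.sqrt B) := by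
    rw [Real.sqrt_div hA0, Real.sqrt_div hB0]
    have h1 := Real.mul_self_sqrt hε.le
    have h2 : 0 < Real.sqrt ε := Real.sqrt_pos.2 hε
    calc ε ^ 2 * (Real.sqrt A / Real.sqrt ε * (Real.sqrt B / Real.sqrt ε))
        = ε ^ 2 / (Real.sqrt ε * Real.sqrt ε) * (Real.sqrt A * Real.sqrt B) := by field_simp
      _ = ε * (Real.sqrt A * Real.sqrt B) := by rw [h1]; field_simp
  rw [key]
  have u2 := mul_le_mul_of_nonneg_left t2 hε.le
  have u3 := mul_le_mul_of_nonneg_left t3 hε.le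
  have u4 := mul_le_mul_of_nonneg_left t4 (by positivity : (0 : ℝ) ≤ ε ^ 2)
  rw [e2] at u2
  rw [e3] at u3
  rw [e4] at u4
  have a2 : |ε * avg J3 (fun x => cf b r x * cf b p x)| =
      ε * |avg J3 (fun x => cf b r x * cf b p x)| := by rw [abs_mul, abs_of_pos hε]
  have a3 : |ε * avg J2 (fun x => cf a p x * cf a r x)| =
      ε * |avg J2 (fun x => cf a p x * cf a r x)| := by rw [abs_mul, abs_of_pos hε]
  have a4 : |ε ^ 2 * ∑ i, p i * r i| = ε ^ 2 * |∑ i, p i * r i| := by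
    rw [abs_mul, abs_of_pos (by positivity)]
  refine (abs_add_le _ _).trans ?_
  have s1 := abs_add_le (av2 J2 J3 (fun x2 x3 => cf a p x2 * ker a b x2 x3 * cf b r x3) +
      ε * avg J3 (fun x => cf b r x * cf b p x)) (ε * avg J2 (fun x => cf a p x * cf a r x))
  have s2 := abs_add_le (av2 J2 J3 (fun x2 x3 => cf a p x2 * ker a b x2 x3 * cf b r x3))
      (ε * avg J3 (fun x => cf b r x * cf b p x))
  rw [a4]
  rw [a3] at s1
  rw [a2] at s2
  linarith

/-! ### Adding and dropping components -/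

/-- the frame cut to a set of components -/
def cr (A : Finset Ω) (c : Ω → ℤ → ℝ) (i : Ω) (x : ℤ) : ℝ := by
  classical exact if i ∈ A then c i x else 0

omit [Fintype Ω] in
theorem cr_mem {A : Finset Ω} (c : Ω → ℤ → ℝ) {i : Ω} (h : i ∈ A) (x : ℤ) : cr A c i x = c i x := by
  unfold cr; rw [if_pos h]
omit [Fintype Ω] in
theorem cr_not_mem {A : Finset Ω} (c : Ω → ℤ → ℝ) {i : Ω} (h : i ∉ A) (x : ℤ) :
    cr A c i x = 0 := by
  unfold cr; rw [if_neg h]

/-- the mass of a set of components -/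
def ms (c : Ω → ℤ → ℝ) (D : Finset Ω) (J : Finset ℤ) : ℝ := ∑ i ∈ D, avg J (fun x => c i x ^ 2)

omit [Fintype Ω] in
theorem ms_nonneg (c : Ω → ℤ → ℝ) (D : Finset Ω) (J : Finset ℤ) : 0 ≤ ms c D J :=
  sum_nonneg fun _ _ => avg_nonneg fun _ _ => sq_nonneg _

theorem sum_cr_sq (c : Ω → ℤ → ℝ) (A : Finset Ω) (J : Finset ℤ) :
    ∑ i, avg J (fun x => cr A c i x ^ 2) = ms c A J := by
  classical
  have h : ∀ i, avg J (fun x => cr A c i x ^ 2) =
      if i ∈ A then avg J (fun x => c i x ^ 2) else 0 := by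
    intro i
    split_ifs with hi
    · exact avg_congr fun x _ => by rw [cr_mem c hi]
    · rw [avg_congr (g := fun _ => (0 : ℝ)) fun x _ => by rw [cr_not_mem c hi]; ring]
      unfold avg; simp
  rw [sum_congr rfl fun i _ => h i, sum_ite_mem, univ_inter]
  rfl

theorem sol_off {ε : ℝ} (hε : 0 < ε) (c : Ω → ℤ → ℝ) (X : ℤ → ℝ) (J : Finset ℤ) {A : Finset Ω}
    {i : Ω} (h : i ∉ A) : sol ε (cr A c) X J i = 0 := by
  have h1 := sol_spec hε (cr A c) X J i
  have z : ∀ f : ℤ → ℝ, avg J (fun x => f x * cr A c i x) = 0 := by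
    intro f
    rw [avg_congr (g := fun _ => (0 : ℝ)) fun x _ => by rw [cr_not_mem c h]; ring]
    unfold avg; simp
  rw [z, z, zero_add] at h1
  have := mul_eq_zero.1 h1.symm
  exact this.resolve_left hε.ne'

theorem cf_cr {A : Finset Ω} (c : Ω → ℤ → ℝ) {w : Ω → ℝ} (hw : ∀ i, i ∉ A → w i = 0) (x : ℤ) :
    cf (cr A c) w x = cf c w x := by
  unfold cf
  refine sum_congr rfl fun i _ => ?_
  by_cases h : i ∈ A
  · rw [cr_mem c h]
  · rw [hw i h]; ring

theorem Rg_mono {ε : ℝ} (hε : 0 < ε) (c : Ω → ℤ → ℝ) (X : ℤ → ℝ) (J : Finset ℤ)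
    {A B : Finset Ω} (hAB : A ⊆ B) : Rg ε (cr A c) X J ≤ Rg ε (cr B c) X J := by
  set w := sol ε (cr A c) X J with hw
  have h0 : ∀ i, i ∉ A → w i = 0 := fun i hi => sol_off hε c X J hi
  have h1 : ∀ i, i ∉ B → w i = 0 := fun i hi => h0 i fun h => hi (hAB h)
  have e : val ε (cr B c) X J w = Rg ε (cr A c) X J := by
    rw [← val_sol hε, ← hw]
    unfold val
    simp only [cf_cr c h0, cf_cr c h1]
  rw [← e]
  exact val_le hε _ _ _ _

theorem Rg_drop [DecidableEq Ω] {ε : ℝ} (hε : 0 < ε) (c : Ω → ℤ → ℝ) (X : ℤ → ℝ) (J : Finset ℤ)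
    (A D : Finset Ω) :
    Rg ε (cr A c) X J ≤ Rg ε (cr (A \ D) c) X J +
      avg J (fun x => X x ^ 2) * (ms c (A ∩ D) J / ε + (ms c (A ∩ D) J / ε) ^ 2) := by
  set w := sol ε (cr A c) X J with hw
  set E := avg J (fun x => X x ^ 2) with hE
  set m := ms c (A ∩ D) J with hm
  have hE0 : 0 ≤ E := avg_nonneg fun _ _ => sq_nonneg _
  have hm0 : 0 ≤ m := ms_nonneg _ _ _
  have h0 : ∀ i, i ∉ A → w i = 0 := fun i hi => sol_off hε c X J hi
  set w1 : Ω → ℝ := fun i => if i ∈ A \ D then w i else 0 with hw1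
  set w2 : Ω → ℝ := fun i => if i ∈ A ∩ D then w i else 0 with hw2
  have hw1' : ∀ i, i ∉ A \ D → w1 i = 0 := fun i hi => if_neg hi
  have hw2' : ∀ i, i ∉ A ∩ D → w2 i = 0 := fun i hi => if_neg hi
  have hw2A : ∀ i, i ∉ A → w2 i = 0 := fun i hi => hw2' i fun h => hi (mem_inter.1 h).1
  have hsum : ∀ i, w i = w1 i + w2 i := by
    intro i
    simp only [hw1, hw2, mem_sdiff, mem_inter]
    by_cases hA : i ∈ A
    · by_cases hD : i ∈ D <;> simp [hA, hD]
    · simp [hA, h0 i hA]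
  have hcf : ∀ x, cf c w x = cf c w1 x + cf c w2 x := by
    intro x
    rw [← cf_add]
    congr 1
    funext i; exact hsum i
  have hprod : ∀ i, w1 i * w2 i = 0 := by
    intro i
    simp only [hw1, hw2, mem_sdiff, mem_inter]
    by_cases hD : i ∈ D <;> simp [hD]
  have hn : n2 w = n2 w1 + n2 w2 := by
    unfold n2
    rw [← sum_add_distrib]
    refine sum_congr rfl fun i _ => ?_
    rw [hsum i]
    linear_combination 2 * hprod i
  -- the normal equation tested with `w2`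
  have hneq := (sol_spec hε (cr A c) X J).eq w2
  rw [← hw] at hneq
  simp only [cf_cr c h0, cf_cr c hw2A] at hneq
  have hww2 : ∑ i, w i * w2 i = n2 w2 := by
    unfold n2
    refine sum_congr rfl fun i _ => ?_
    rw [hsum i]
    linear_combination hprod i
  rw [hww2] at hneq
  -- the difference
  have hdiff : Rg ε (cr A c) X J - val ε (cr (A \ D) c) X J w1 =
      ε * n2 w2 + avg J (fun x => cf c w2 x ^ 2) := by
    have e1 : Rg ε (cr A c) X J = val ε (cr A c) X J w := (val_sol hε _ _ _).symm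
    rw [e1]
    unfold val
    simp only [cf_cr c h0, cf_cr c hw1']
    have a1 : avg J (fun x => X x * cf c w x) = avg J (fun x => X x * cf c w1 x) +
        avg J (fun x => X x * cf c w2 x) := by
      rw [← avg_add]; exact avg_congr fun x _ => by rw [hcf]; ring
    have a2 : avg J (fun x => cf c w x ^ 2) = avg J (fun x => cf c w1 x ^ 2) +
        2 * avg J (fun x => cf c w x * cf c w2 x) - avg J (fun x => cf c w2 x ^ 2) := by
      rw [← avg_smul, ← avg_add, ← avg_sub]; exact avg_congr fun x _ => by rw [hcf]; ring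
    rw [a1, a2, hn]
    linear_combination 2 * hneq
  -- sizes
  have hC2 : avg J (fun x => cf c w2 x ^ 2) ≤ m * n2 w2 := by
    have h1 := avg_cf_sq_le (cr (A ∩ D) c) w2 J
    simp only [cf_cr c hw2'] at h1
    rw [sum_cr_sq] at h1
    linarith [h1]
  have hres : avg J (fun x => (X x - cf c w x) ^ 2) ≤ E := by
    have h1 : avg J (fun x => (X x - cf c w x) ^ 2) = E - 2 * avg J (fun x => X x * cf c w x) +
        avg J (fun x => cf c w x ^ 2) := by
      rw [hE, ← avg_smul, ← avg_sub, ← avg_add]; exact avg_congr fun x _ => by ring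
    have h2 : avg J (fun x => X x * cf c w x) = Rg ε (cr A c) X J := by
      rw [Rg_eq hε, ← hw]; simp only [cf_cr c h0]
    have h3 : avg J (fun x => cf c w x ^ 2) ≤ Rg ε (cr A c) X J := by
      have := sol_avg_le hε (cr A c) X J
      rw [← hw] at this
      simpa only [cf_cr c h0] using this
    have h4 := Rg_nonneg hε (cr A c) X J
    rw [h1, h2]; linarith
  have h2 : ε * n2 w2 = avg J (fun x => (X x - cf c w x) * cf c w2 x) := by
    have : avg J (fun x => (X x - cf c w x) * cf c w2 x) =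
        avg J (fun x => X x * cf c w2 x) - avg J (fun x => cf c w x * cf c w2 x) := by
      rw [← avg_sub]; exact avg_congr fun x _ => by ring
    rw [this, hneq]; ring
  have h3 : (ε * n2 w2) ^ 2 ≤ E * (m * n2 w2) := by
    rw [h2]
    exact (avg_mul_sq_le _ _ _).trans (mul_le_mul hres hC2 (avg_nonneg fun _ _ => sq_nonneg _) hE0)
  have hn0 := n2_nonneg w2
  have h4 : n2 w2 ≤ E * m / ε ^ 2 := by
    rw [le_div_iff₀ (by positivity)]
    rcases hn0.eq_or_lt with h | h
    · rw [← h]; nlinarith [mul_nonneg hE0 hm0]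
    · have : n2 w2 * (n2 w2 * ε ^ 2) ≤ n2 w2 * (E * m) := by nlinarith
      exact le_of_mul_le_mul_left this h
  have h5 : ε * n2 w2 ≤ E * (m / ε) := by
    calc ε * n2 w2 ≤ ε * (E * m / ε ^ 2) := mul_le_mul_of_nonneg_left h4 hε.le
      _ = E * (m / ε) := by field_simp
  have h6 : avg J (fun x => cf c w2 x ^ 2) ≤ E * (m / ε) ^ 2 := by
    calc avg J (fun x => cf c w2 x ^ 2) ≤ m * n2 w2 := hC2
      _ ≤ m * (E * m / ε ^ 2) := mul_le_mul_of_nonneg_left h4 hm0
      _ = E * (m / ε) ^ 2 := by field_simp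
  have h7 := val_le hε (cr (A \ D) c) X J w1
  nlinarith

end

end Vale.Agent.P141.H337
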