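import Vale.Agent.P141.H935.Slot
import Vale.Agent.P141.H606.TKer

/-!
# P141, line END: the component families cut to the used cells

`H606.Tree1` wants the mass bound on all cells of the tree; the mass is only bounded on the used
cells.

* `cutP V A`: the family `A` on the cells of `V`, empty elsewhere;
* `tree1_cut`: `Tree1` with `2 L` for the cut family from the mass bound on `V`;
* `DR_cut`: the dropped mass of the cut family, exits included;
* `Vq`: the used cells of a line, without the root; `TU`: the touched cells for a set of roots;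
* `tree1_slot`: `Tree1` for one block slot; `sum_TC_TU`: the touched measure over the roots;
* `sum_DR_cut`: the sums over the roots.
-/

namespace Vale.Agent.P141.H337

open Finset
open Vale.Agent.P141.PL.H315 (avg)
open Vale.Agent.P141.H315 Vale.Agent.P141.PL.H318 Vale.Agent.P141.H347 Vale.Agent.P141.H8
open Vale.Agent.P141.PL.H95 (gr mem_gr card_gr)
open Vale.Agent.P141.H606 (Tree1 DR TC cel_parent)
open Vale.Agent.P141.H935 (Xs CH Ts)

noncomputable section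

open scoped Classical

variable {Ω : Type*}

/-! ### Halves -/

theorem ivm_parent (k : ℕ) (b : ℤ) : ivm k b ⊆ ivm (k + 1) (b / 2) := by
  intro x hx
  rw [mem_ivm] at hx ⊢
  rw [← hx, pow_succ, Int.ediv_ediv_of_nonneg (by positivity)]

theorem avg_half {k : ℕ} {b : ℤ} {f : ℤ → ℝ} (hf : ∀ x, 0 ≤ f x) :
    avg (ivm k b) f ≤ 2 * avg (ivm (k + 1) (b / 2)) f := by
  unfold avg
  rw [card_ivm, card_ivm]
  have h1 : ∑ x ∈ ivm k b, f x ≤ ∑ x ∈ ivm (k + 1) (b / 2), f x :=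
    sum_le_sum_of_subset_of_nonneg (ivm_parent k b) fun x _ _ => hf x
  have h2 : (2 : ℝ) * (((2 ^ (k + 1) : ℕ) : ℝ)⁻¹ * ∑ x ∈ ivm (k + 1) (b / 2), f x) =
      ((2 ^ k : ℕ) : ℝ)⁻¹ * ∑ x ∈ ivm (k + 1) (b / 2), f x := by
    push_cast
    rw [pow_succ]
    have : (2 : ℝ) ^ k ≠ 0 := by positivity
    field_simp
  rw [h2]
  exact mul_le_mul_of_nonneg_left h1 (by positivity)

theorem ms_half (c : Ω → ℤ → ℝ) (D : Finset Ω) (k : ℕ) (b : ℤ) :
    ms c D (ivm k b) ≤ 2 * ms c D (ivm (k + 1) (b / 2)) := by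
  unfold ms
  rw [mul_sum]
  exact sum_le_sum fun i _ => avg_half fun x => sq_nonneg _

/-! ### The cut family -/

/-- the family cut to the cells of `V` -/
def cutP (V : ℕ → ℤ → Prop) (A : ℕ → ℤ → Finset Ω) (k : ℕ) (b : ℤ) : Finset Ω :=
  if V k b then A k b else ∅

theorem cutP_pos {V : ℕ → ℤ → Prop} {A : ℕ → ℤ → Finset Ω} {k : ℕ} {b : ℤ} (h : V k b) :
    cutP V A k b = A k b := if_pos h

theorem cutP_neg {V : ℕ → ℤ → Prop} {A : ℕ → ℤ → Finset Ω} {k : ℕ} {b : ℤ} (h : ¬ V k b) :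
    cutP V A k b = ∅ := if_neg h

theorem sub_cutP {V : ℕ → ℤ → Prop} {A : ℕ → ℤ → Finset Ω} {k : ℕ} {b : ℤ} {S : Finset Ω}
    (h : V k b) (hS : S ⊆ A k b) : S ⊆ cutP V A k b := by rwa [cutP_pos h]

theorem ms_cutP {V : ℕ → ℤ → Prop} {A : ℕ → ℤ → Finset Ω} {k : ℕ} {b : ℤ} {c : Ω → ℤ → ℝ}
    {L : ℝ} {J : Finset ℤ} (hL0 : 0 ≤ L) (h : V k b → ms c (A k b) J ≤ L) :
    ms c (cutP V A k b) J ≤ L := by
  by_cases hV : V k b
  · rw [cutP_pos hV]; exact h hV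
  · rw [cutP_neg hV]
    unfold ms
    rw [sum_empty]; exact hL0

/-- **`Tree1` from the mass bound on the used cells.** -/
theorem tree1_cut [DecidableEq Ω] {e L : ℝ} {c : Ω → ℤ → ℝ} {A : ℕ → ℤ → Finset Ω}
    {X h : ℕ → ℤ → ℝ} {K : ℕ} {b0 : ℤ} {T : ℕ → Finset ℤ} {V : ℕ → ℤ → Prop} (he : 0 ≤ e)
    (hL0 : 0 ≤ L)
    (hh : ∀ k < K, ∀ b ∈ cel K b0 (k + 1), (∀ x ∈ ivm k (2 * b), h (k + 1) x = 1) ∧
      ∀ x ∈ ivm k (2 * b + 1), h (k + 1) x = -1)
    (hX : ∀ k ≤ K, ∀ b ∈ cel K b0 k, avg (ivm k b) (fun x => X k x ^ 2) ≤ e)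
    (hX' : ∀ k < K, ∀ b ∈ cel K b0 k, avg (ivm k b) (fun x => X (k + 1) x ^ 2) ≤ e)
    (hT : ∀ k < K, ∀ b ∈ cel K b0 k, b ∉ T k → ∀ x ∈ ivm k b, X (k + 1) x = X k x)
    (hL : ∀ k ≤ K, ∀ b ∈ cel K b0 k, V k b → ms c (A k b) (ivm k b) ≤ L) :
    Tree1 e (2 * L) c (cutP V A) X h K b0 T where
  e0 := he
  hh := hh
  hX := hX
  hX' := hX'
  hT := hT
  hL k hk b hb := (ms_cutP hL0 (hL k hk b hb)).trans (by linarith)
  hL' k hk b hb := (ms_half _ _ _ _).trans (mul_le_mul_of_nonneg_left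
    (ms_cutP hL0 (hL (k + 1) hk (b / 2) (cel_parent hk hb))) (by norm_num))

/-- **The exits of a region of cells have measure at most the root.** -/
theorem exits_le {V : ℕ → ℤ → Prop} {K : ℕ} {b0 : ℤ}
    (hV : ∀ k < K, ∀ b ∈ cel K b0 k, V k b → V (k + 1) (b / 2)) :
    ∑ k ∈ range K, ∑ b ∈ cel K b0 k, (2 : ℝ) ^ k *
      (if V (k + 1) (b / 2) ∧ ¬ V k b then 1 else 0) ≤ 2 ^ K := by
  have key : ∀ m ≤ K, ∑ k ∈ range m, ∑ b ∈ cel K b0 k, (2 : ℝ) ^ k *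
      (if V (k + 1) (b / 2) ∧ ¬ V k b then 1 else 0) ≤
      ∑ b ∈ cel K b0 m, 2 ^ m * (if V m b then (1 : ℝ) else 0) := by
    intro m
    induction m with
    | zero =>
      intro _
      rw [sum_range_zero]
      exact sum_nonneg fun b _ => by positivity
    | succ m ih =>
      intro hm
      rw [sum_range_succ]
      have h1 := ih (by omega)
      have h2 : ∑ b ∈ cel K b0 m, 2 ^ m * (if V m b then (1 : ℝ) else 0) +
          ∑ b ∈ cel K b0 m, (2 : ℝ) ^ m * (if V (m + 1) (b / 2) ∧ ¬ V m b then 1 else 0) ≤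
          ∑ b ∈ cel K b0 m, 2 ^ m * (if V (m + 1) (b / 2) then (1 : ℝ) else 0) := by
        rw [← sum_add_distrib]
        refine sum_le_sum fun b hb => ?_
        rw [← mul_add]
        refine mul_le_mul_of_nonneg_left ?_ (by positivity)
        by_cases a1 : V m b
        · have a2 := hV m (by omega) b hb a1
          rw [if_pos a1, if_pos a2, if_neg (fun h => h.2 a1)]
          norm_num
        · rw [if_neg a1]
          by_cases a2 : V (m + 1) (b / 2)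
          · rw [if_pos ⟨a2, a1⟩, if_pos a2]; norm_num
          · rw [if_neg (fun h => a2 h.1), if_neg a2]; norm_num
      have h3 : ∑ b ∈ cel K b0 m, 2 ^ m * (if V (m + 1) (b / 2) then (1 : ℝ) else 0) =
          ∑ b ∈ cel K b0 (m + 1), 2 ^ (m + 1) * (if V (m + 1) b then (1 : ℝ) else 0) := by
        rw [sum_cel (by omega : m < K)]
        refine sum_congr rfl fun b _ => ?_
        have e1 : (2 * b) / 2 = b := by omega
        have e2 : (2 * b + 1) / 2 = b := by omega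
        rw [e1, e2, pow_succ]
        ring
      linarith
  refine (key K le_rfl).trans ?_
  have h4 := card_cel (K := K) (b0 := b0) le_rfl
  calc ∑ b ∈ cel K b0 K, 2 ^ K * (if V K b then (1 : ℝ) else 0)
      ≤ ∑ b ∈ cel K b0 K, (2 : ℝ) ^ K := by
        refine sum_le_sum fun b _ => ?_
        split_ifs <;> simp
    _ = 2 ^ K * (cel K b0 K).card := by rw [sum_const, nsmul_eq_mul, mul_comm]
    _ = 2 ^ K := h4

/-- **The dropped mass of the cut family.** -/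
theorem DR_cut [DecidableEq Ω] {L : ℝ} {c : Ω → ℤ → ℝ} {A : ℕ → ℤ → Finset Ω} {K : ℕ} {b0 : ℤ}
    {V : ℕ → ℤ → Prop} (hL0 : 0 ≤ L)
    (hV : ∀ k < K, ∀ b ∈ cel K b0 k, V k b → V (k + 1) (b / 2))
    (hL : ∀ k ≤ K, ∀ b ∈ cel K b0 k, V k b → ms c (A k b) (ivm k b) ≤ L) :
    DR c (cutP V A) K b0 ≤ DR c A K b0 + 2 * L * 2 ^ K := by
  have h0 : ∀ k < K, ∀ b ∈ cel K b0 k, dm c (cutP V A) k b ≤
      dm c A k b + 2 * L * (if V (k + 1) (b / 2) ∧ ¬ V k b then 1 else 0) := by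
    intro k hk b hb
    have hd : 0 ≤ dm c A k b := ms_nonneg _ _ _
    have hi : (0 : ℝ) ≤ if V (k + 1) (b / 2) ∧ ¬ V k b then 1 else 0 := by
      split_ifs <;> norm_num
    by_cases a2 : V (k + 1) (b / 2)
    · by_cases a1 : V k b
      · unfold dm
        rw [cutP_pos a2, cutP_pos a1]
        have : 0 ≤ 2 * L * (if V (k + 1) (b / 2) ∧ ¬ V k b then (1 : ℝ) else 0) := by
          positivity
        linarith
      · rw [if_pos ⟨a2, a1⟩, mul_one]
        have h1 : dm c (cutP V A) k b ≤ 2 * L := by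
          unfold dm
          rw [cutP_neg a1, sdiff_empty]
          exact (ms_half _ _ _ _).trans (mul_le_mul_of_nonneg_left
            (ms_cutP hL0 (hL (k + 1) hk (b / 2) (cel_parent hk hb))) (by norm_num))
        linarith
    · have h1 : dm c (cutP V A) k b = 0 := by
        unfold dm
        rw [cutP_neg a2, empty_sdiff]
        unfold ms
        rw [sum_empty]
      rw [h1]
      positivity
  unfold DR
  have h1 : ∑ k ∈ range K, ∑ b ∈ cel K b0 k, 2 ^ k * dm c (cutP V A) k b ≤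
      ∑ k ∈ range K, ∑ b ∈ cel K b0 k, (2 ^ k * dm c A k b + 2 * L *
        (2 ^ k * (if V (k + 1) (b / 2) ∧ ¬ V k b then 1 else 0))) := by
    refine sum_le_sum fun k hk => sum_le_sum fun b hb => ?_
    have h2 := mul_le_mul_of_nonneg_left (h0 k (mem_range.1 hk) b hb)
      (by positivity : (0 : ℝ) ≤ 2 ^ k)
    linarith
  refine h1.trans ?_
  simp only [sum_add_distrib, ← mul_sum]
  have h3 := mul_le_mul_of_nonneg_left (exits_le hV) (by positivity : 0 ≤ 2 * L)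
  simp only [← mul_sum] at h3
  linarith

/-- **The dropped mass of the cut family, all roots of one fibre.** -/
theorem sum_DR_cut [DecidableEq Ω] {L N : ℝ} {c : Ω → ℤ → ℝ} {A : ℕ → ℤ → Finset Ω} {K : ℕ}
    {B : Finset ℤ} {V : ℕ → ℤ → Prop} (hL0 : 0 ≤ L) (hB : (B.card : ℝ) ≤ N)
    (hV : ∀ b0 ∈ B, ∀ k < K, ∀ b ∈ cel K b0 k, V k b → V (k + 1) (b / 2))
    (hL : ∀ b0 ∈ B, ∀ k ≤ K, ∀ b ∈ cel K b0 k, V k b → ms c (A k b) (ivm k b) ≤ L) :
    ∑ b0 ∈ B, DR c (cutP V A) K b0 ≤ ∑ b0 ∈ B, DR c A K b0 + 2 * N * L * 2 ^ K := by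
  refine (sum_le_sum fun b0 h0 => DR_cut hL0 (hV b0 h0) (hL b0 h0)).trans ?_
  rw [sum_add_distrib, sum_const, nsmul_eq_mul]
  have h1 : 0 ≤ 2 * L * 2 ^ K := by positivity
  nlinarith

/-! ### The used and the touched cells of a line, without the root -/

/-- the used cells of a line -/
def Vq (ud : ℕ → ℤ → Prop) (y0 sg : ℤ) (k : ℕ) (b : ℤ) : Prop := ∃ u ∈ ivm k b, ud k (y0 + sg * u)

/-- the touched cells of a line for a set of roots -/
def TU (ud : ℕ → ℤ → Prop) (t : ℕ → ℤ → ℕ) (y0 sg : ℤ) (K : ℕ) (B : Finset ℤ) (k : ℕ) :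
    Finset ℤ := B.biUnion fun b0 => Ts ud t y0 sg K b0 k

variable {s : ℤ} {gd ud : ℕ → ℤ → Prop} {Λ : ℕ} {x0 : ℤ} {t : ℕ → ℤ → ℕ} {F : ℕ → ℤ → ℝ}
  {y0 sg : ℤ} {K : ℕ} {b0 : ℤ} {e : ℝ}

theorem Vq_up (hR : Rgn (gr 7 s) gd Λ x0 ud) {k : ℕ} (hk : k < Λ) {b : ℤ}
    (h : Vq ud y0 sg k b) : Vq ud y0 sg (k + 1) (b / 2) := by
  obtain ⟨u, hu, h1⟩ := h
  exact ⟨u, ivm_parent k b hu, hR.up k hk _ h1⟩

/-- a cell of the line whose points all lie in one used cell is used -/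
theorem Vq_of_sub (hR : Rgn (gr 7 s) gd Λ x0 ud) {k : ℕ} {b y : ℤ} (hy : ud k y)
    (h : ∀ u ∈ ivm k b, y0 + sg * u ∈ (gr 7 s).cube k y) : Vq ud y0 sg k b := by
  have h1 : 2 ^ k * b ∈ ivm k b := by
    unfold ivm
    rw [mem_Ico]
    have : (0 : ℤ) < 2 ^ k := by positivity
    constructor <;> linarith
  exact ⟨_, h1, (hR.const k y _ (h _ h1)).2 hy⟩

theorem mem_TU {B : Finset ℤ} {k : ℕ} {b : ℤ} (hB : b0 ∈ B) (hb : b ∈ cel K b0 k) :
    b ∈ TU ud t y0 sg K B k ↔ b ∈ Ts ud t y0 sg K b0 k := by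
  unfold TU
  rw [mem_biUnion]
  constructor
  · rintro ⟨b1, _, h1⟩
    unfold Ts at h1 ⊢
    exact mem_filter.2 ⟨hb, (mem_filter.1 h1).2⟩
  · exact fun h => ⟨b0, hB, h⟩

theorem TC_TU {B : Finset ℤ} (hB : b0 ∈ B) :
    TC (TU ud t y0 sg K B) K b0 = TC (Ts ud t y0 sg K b0) K b0 := by
  unfold TC
  refine sum_congr rfl fun k _ => ?_
  congr 1
  ext b
  simp only [mem_filter]
  constructor
  · rintro ⟨h1, h2⟩
    exact ⟨h1, (mem_TU hB h1).1 h2⟩
  · rintro ⟨h1, h2⟩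
    exact ⟨h1, (mem_TU hB h1).2 h2⟩

/-- **`Tree1` for one block slot**: the only hypothesis on the components is the mass bound on the
used cells. -/
theorem tree1_slot [DecidableEq Ω] (hR : Rgn (gr 7 s) gd Λ x0 ud) (hl : Lab (gr 7 s) Λ t)
    (hen : ∀ k y, ud k y → dot ((gr 7 s).cube k y) (F (t k y)) (F (t k y)) ≤
      e * cd (gr 7 s) k y) (he : 0 ≤ e) (hs0 : sg ≠ 0) (hsg : |sg| ≤ 3) (hK : K ≤ Λ)
    {B : Finset ℤ} (hB : b0 ∈ B) {L : ℝ} (hL0 : 0 ≤ L) {c : Ω → ℤ → ℝ}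
    {A : ℕ → ℤ → Finset Ω} {X : ℕ → ℤ → ℝ}
    (hX : ∀ k u, X k u = Xs ud t F y0 sg k u)
    (hL : ∀ k ≤ K, ∀ b ∈ cel K b0 k, Vq ud y0 sg k b → ms c (A k b) (ivm k b) ≤ L) :
    Tree1 (512 * e) (2 * L) c (cutP (Vq ud y0 sg) A) X
      (fun k => Vale.Agent.P141.PL.hs k) K b0 (TU ud t y0 sg K B) := by
  have hXe : X = Xs ud t F y0 sg := by
    funext k u; exact hX k u
  subst hXe
  exact tree1_cut (by positivity) hL0 (Vale.Agent.P141.H935.hh_hs K b0)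
    (fun k _ b _ => (Vale.Agent.P141.H935.avg_en hR hl hen he hs0 hsg k b).trans (by linarith))
    (fun k _ b _ => Vale.Agent.P141.H935.avg_en' hR hl hen he hs0 hsg k b)
    (fun k hk b hb hT => Vale.Agent.P141.H935.Xs_touch hR hl hK hk hb
      fun h => hT ((mem_TU hB hb).2 h)) hL

/-- **The touched measure over the roots of one fibre.** -/
theorem sum_TC_TU (hR : Rgn (gr 7 s) gd Λ x0 ud) (hl : Lab (gr 7 s) Λ t) (hs0 : sg ≠ 0)
    (hK : K ≤ Λ) {B : Finset ℤ} {N Kp : ℝ} (hB : (B.card : ℝ) ≤ N)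
    (hp : tops (gr 7 s) ud t Λ x0 ≤ Kp * cd (gr 7 s) Λ x0) (hKp : 0 ≤ Kp) :
    ∑ b ∈ B, TC (TU ud t y0 sg K B) K b ≤ 256 * N * (Kp + 1) * 2 ^ Λ := by
  have h1 : ∀ b ∈ B, TC (TU ud t y0 sg K B) K b ≤ 2 * ((Kp + 1) * cd (gr 7 s) Λ x0) := by
    intro b hb
    rw [TC_TU hb]
    refine (Vale.Agent.P141.H935.TC_le hR hl hs0 hK).trans ?_
    linarith
  refine (sum_le_sum h1).trans ?_
  rw [sum_const, nsmul_eq_mul]
  have h2 : cd (gr 7 s) Λ x0 = 2 ^ (Λ + 7) := by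
    unfold cd; rw [card_gr]; push_cast; ring
  rw [h2, pow_add]
  have h3 : 0 ≤ 2 * ((Kp + 1) * ((2 : ℝ) ^ Λ * 2 ^ 7)) := by positivity
  nlinarith

end

end Vale.Agent.P141.H337
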