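import Vale.Agent.P141.H337.PairNorm

/-!
# P141, line W, end lemma: the ridge functional of a frame

`J` a finite set (a cell), `c : Ω → ℤ → ℝ` a finite frame, `ε > 0`.  The ridge functional
`R (X) = max_w (2 E_J (X c w) - E_J (c w)² - ε |w|²)` is the explained energy of `X`; it is attained.

* `split`: Bessel with a MOVING normaliser: `R (h X) ≤ 2 (mean of R on the halves - R) + error`;
* `box_le`: a product kernel of small operator norm couples the two ridge functionals.
-/

namespace Vale.Agent.P141.H337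

open Finset Vale.Agent.P141.PL.H315

noncomputable section

variable {Ω : Type*} [Fintype Ω]

/-- the function with coefficients `w` -/
def cf (c : Ω → ℤ → ℝ) (w : Ω → ℝ) (x : ℤ) : ℝ := ∑ i, w i * c i x

theorem cf_add (c : Ω → ℤ → ℝ) (w v : Ω → ℝ) (x : ℤ) :
    cf c (fun i => w i + v i) x = cf c w x + cf c v x := by
  unfold cf; rw [← sum_add_distrib]; exact sum_congr rfl fun i _ => by ring

theorem cf_sub (c : Ω → ℤ → ℝ) (w v : Ω → ℝ) (x : ℤ) :
    cf c (fun i => w i - v i) x = cf c w x - cf c v x := by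
  unfold cf; rw [← sum_sub_distrib]; exact sum_congr rfl fun i _ => by ring

/-- the square norm of the coefficients -/
def n2 (w : Ω → ℝ) : ℝ := ∑ i, w i ^ 2

theorem n2_nonneg (w : Ω → ℝ) : 0 ≤ n2 w := sum_nonneg fun _ _ => sq_nonneg _

theorem avg_add {X : Type*} (Q : Finset X) (f g : X → ℝ) :
    avg Q (fun x => f x + g x) = avg Q f + avg Q g := by
  unfold avg; rw [sum_add_distrib, mul_add]

theorem avg_sub {X : Type*} (Q : Finset X) (f g : X → ℝ) :
    avg Q (fun x => f x - g x) = avg Q f - avg Q g := by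
  unfold avg; rw [sum_sub_distrib, mul_sub]

theorem avg_smul {X : Type*} (Q : Finset X) (a : ℝ) (f : X → ℝ) :
    avg Q (fun x => a * f x) = a * avg Q f := by
  unfold avg; rw [← mul_sum]; ring

theorem avg_congr {X : Type*} {Q : Finset X} {f g : X → ℝ} (h : ∀ x ∈ Q, f x = g x) :
    avg Q f = avg Q g := by
  unfold avg; rw [sum_congr rfl h]

theorem avg_sum {X ι : Type*} (Q : Finset X) (s : Finset ι) (f : ι → X → ℝ) :
    avg Q (fun x => ∑ i ∈ s, f i x) = ∑ i ∈ s, avg Q (f i) := by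
  unfold avg; rw [sum_comm, mul_sum]

theorem avg_mul_sq_le {X : Type*} (Q : Finset X) (f g : X → ℝ) :
    avg Q (fun x => f x * g x) ^ 2 ≤ avg Q (fun x => f x ^ 2) * avg Q (fun x => g x ^ 2) := by
  have h := sum_mul_sq_le_sq_mul_sq Q f g
  unfold avg
  calc ((Q.card : ℝ)⁻¹ * ∑ x ∈ Q, f x * g x) ^ 2
      = ((Q.card : ℝ)⁻¹) ^ 2 * (∑ x ∈ Q, f x * g x) ^ 2 := by ring
    _ ≤ ((Q.card : ℝ)⁻¹) ^ 2 * ((∑ x ∈ Q, f x ^ 2) * ∑ x ∈ Q, g x ^ 2) := by gcongr
    _ = _ := by ring

/-- the normal equation -/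
def Norm (ε : ℝ) (c : Ω → ℤ → ℝ) (X : ℤ → ℝ) (J : Finset ℤ) (w : Ω → ℝ) : Prop :=
  ∀ i, avg J (fun x => X x * c i x) = avg J (fun x => cf c w x * c i x) + ε * w i

theorem exists_norm {ε : ℝ} (hε : 0 < ε) (c : Ω → ℤ → ℝ) (X : ℤ → ℝ) (J : Finset ℤ) :
    ∃ w, Norm ε c X J w := by
  classical
  let Φ : (Ω → ℝ) →ₗ[ℝ] (Ω → ℝ) :=
    { toFun := fun w i => avg J (fun x => cf c w x * c i x) + ε * w i
      map_add' := by
        intro w v
        funext i
        simp only [Pi.add_apply]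
        have : ∀ x, cf c (w + v) x * c i x = cf c w x * c i x + cf c v x * c i x := by
          intro x
          have := cf_add c w v x
          have e : cf c (w + v) x = cf c w x + cf c v x := this
          rw [e]; ring
        rw [avg_congr fun x _ => this x, avg_add]
        ring
      map_smul' := by
        intro a w
        funext i
        simp only [Pi.smul_apply, smul_eq_mul, RingHom.id_apply]
        have : ∀ x, cf c (a • w) x * c i x = a * (cf c w x * c i x) := by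
          intro x
          unfold cf
          rw [sum_mul, sum_mul, mul_sum]
          exact sum_congr rfl fun j _ => by simp only [Pi.smul_apply, smul_eq_mul]; ring
        rw [avg_congr fun x _ => this x, avg_smul]
        ring }
  have hinj : Function.Injective Φ := by
    rw [injective_iff_map_eq_zero]
    intro w hw
    have h1 : ∑ i, w i * Φ w i = 0 := by
      rw [hw]; simp
    have h2 : ∑ i, w i * Φ w i = avg J (fun x => cf c w x ^ 2) + ε * n2 w := by
      have h3 : ∀ i, w i * Φ w i = avg J (fun x => cf c w x * (w i * c i x)) + ε * w i ^ 2 := by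
        intro i
        show w i * (avg J (fun x => cf c w x * c i x) + ε * w i) = _
        rw [mul_add, ← avg_smul]
        congr 1
        · exact avg_congr fun x _ => by ring
        · ring
      rw [sum_congr rfl fun i _ => h3 i, sum_add_distrib, ← avg_sum, ← mul_sum]
      congr 1
      refine avg_congr fun x _ => ?_
      rw [← mul_sum, sq]
      rfl
    rw [h2] at h1
    have h3 : 0 ≤ avg J (fun x => cf c w x ^ 2) := avg_nonneg fun _ _ => sq_nonneg _
    have h4 : n2 w = 0 := by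
      have := n2_nonneg w
      nlinarith
    funext i
    have h5 := (sum_eq_zero_iff_of_nonneg fun i _ => sq_nonneg (w i)).1 h4 i (mem_univ i)
    simpa using h5
  obtain ⟨w, hw⟩ := (LinearMap.injective_iff_surjective.1 hinj)
    (fun i => avg J (fun x => X x * c i x))
  exact ⟨w, fun i => (congrFun hw i).symm⟩

/-- the solution of the normal equation -/
def sol (ε : ℝ) (c : Ω → ℤ → ℝ) (X : ℤ → ℝ) (J : Finset ℤ) : Ω → ℝ := by
  classical exact if h : ∃ w, Norm ε c X J w then h.choose else 0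

theorem sol_spec {ε : ℝ} (hε : 0 < ε) (c : Ω → ℤ → ℝ) (X : ℤ → ℝ) (J : Finset ℤ) :
    Norm ε c X J (sol ε c X J) := by
  unfold sol
  rw [dif_pos (exists_norm hε c X J)]
  exact (exists_norm hε c X J).choose_spec

theorem Norm.eq {ε : ℝ} {c : Ω → ℤ → ℝ} {X : ℤ → ℝ} {J : Finset ℤ} {w : Ω → ℝ}
    (h : Norm ε c X J w) (v : Ω → ℝ) :
    avg J (fun x => X x * cf c v x) = avg J (fun x => cf c w x * cf c v x) + ε * ∑ i, w i * v i := by
  have h1 : ∀ f : ℤ → ℝ, avg J (fun x => f x * cf c v x) =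
      ∑ i, v i * avg J (fun x => f x * c i x) := by
    intro f
    have : ∀ i, v i * avg J (fun x => f x * c i x) = avg J (fun x => v i * (f x * c i x)) :=
      fun i => (avg_smul _ _ _).symm
    rw [sum_congr rfl fun i _ => this i, ← avg_sum]
    refine avg_congr fun x _ => ?_
    unfold cf
    rw [mul_sum]
    exact sum_congr rfl fun i _ => by ring
  rw [h1, h1, mul_sum, ← sum_add_distrib]
  refine sum_congr rfl fun i _ => ?_
  rw [h i]; ring

/-- **The ridge functional**: the explained energy. -/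
def Rg (ε : ℝ) (c : Ω → ℤ → ℝ) (X : ℤ → ℝ) (J : Finset ℤ) : ℝ :=
  avg J (fun x => cf c (sol ε c X J) x ^ 2) + ε * n2 (sol ε c X J)

theorem Rg_nonneg {ε : ℝ} (hε : 0 < ε) (c : Ω → ℤ → ℝ) (X : ℤ → ℝ) (J : Finset ℤ) :
    0 ≤ Rg ε c X J :=
  add_nonneg (avg_nonneg fun _ _ => sq_nonneg _) (mul_nonneg hε.le (n2_nonneg _))

theorem sol_n2_le {ε : ℝ} (_hε : 0 < ε) (c : Ω → ℤ → ℝ) (X : ℤ → ℝ) (J : Finset ℤ) :
    ε * n2 (sol ε c X J) ≤ Rg ε c X J :=
  le_add_of_nonneg_left (avg_nonneg fun _ _ => sq_nonneg _)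

theorem sol_avg_le {ε : ℝ} (hε : 0 < ε) (c : Ω → ℤ → ℝ) (X : ℤ → ℝ) (J : Finset ℤ) :
    avg J (fun x => cf c (sol ε c X J) x ^ 2) ≤ Rg ε c X J :=
  le_add_of_nonneg_right (mul_nonneg hε.le (n2_nonneg _))

theorem Rg_eq {ε : ℝ} (hε : 0 < ε) (c : Ω → ℤ → ℝ) (X : ℤ → ℝ) (J : Finset ℤ) :
    Rg ε c X J = avg J (fun x => X x * cf c (sol ε c X J) x) := by
  rw [(sol_spec hε c X J).eq]
  unfold Rg n2
  congr 1
  · exact avg_congr fun x _ => by ring
  · congr 1; exact sum_congr rfl fun i _ => by ring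

/-- the value of a competitor -/
def val (ε : ℝ) (c : Ω → ℤ → ℝ) (X : ℤ → ℝ) (J : Finset ℤ) (v : Ω → ℝ) : ℝ :=
  2 * avg J (fun x => X x * cf c v x) - avg J (fun x => cf c v x ^ 2) - ε * n2 v

theorem val_sol {ε : ℝ} (hε : 0 < ε) (c : Ω → ℤ → ℝ) (X : ℤ → ℝ) (J : Finset ℤ) :
    val ε c X J (sol ε c X J) = Rg ε c X J := by
  unfold val
  rw [← Rg_eq hε]
  unfold Rg
  ring

theorem val_le {ε : ℝ} (hε : 0 < ε) (c : Ω → ℤ → ℝ) (X : ℤ → ℝ) (J : Finset ℤ) (v : Ω → ℝ) :
    val ε c X J v ≤ Rg ε c X J := by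
  set w := sol ε c X J with hw
  have h1 := (sol_spec hε c X J).eq v
  rw [← hw] at h1
  have h2 : 0 ≤ avg J (fun x => (cf c w x - cf c v x) ^ 2) := avg_nonneg fun _ _ => sq_nonneg _
  have h3 : avg J (fun x => (cf c w x - cf c v x) ^ 2) = avg J (fun x => cf c w x ^ 2) -
      2 * avg J (fun x => cf c w x * cf c v x) + avg J (fun x => cf c v x ^ 2) := by
    rw [← avg_smul, ← avg_sub, ← avg_add]
    exact avg_congr fun x _ => by ring
  have h4 : 0 ≤ ∑ i, (w i - v i) ^ 2 := sum_nonneg fun _ _ => sq_nonneg _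
  have h5 : ∑ i, (w i - v i) ^ 2 = n2 w - 2 * ∑ i, w i * v i + n2 v := by
    unfold n2
    rw [mul_sum, ← sum_sub_distrib, ← sum_add_distrib]
    exact sum_congr rfl fun i _ => by ring
  have h6 : Rg ε c X J = avg J (fun x => cf c w x ^ 2) + ε * n2 w := rfl
  unfold val
  rw [h1, h6]
  rw [h3] at h2
  rw [h5] at h4
  nlinarith

theorem Rg_le_energy {ε : ℝ} (hε : 0 < ε) (c : Ω → ℤ → ℝ) (X : ℤ → ℝ) (J : Finset ℤ) :
    Rg ε c X J ≤ avg J (fun x => X x ^ 2) := by
  set w := sol ε c X J with hw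
  have h1 : Rg ε c X J ^ 2 ≤ avg J (fun x => X x ^ 2) * Rg ε c X J := by
    have h2 := avg_mul_sq_le J X (cf c w)
    rw [hw, ← Rg_eq hε, ← hw] at h2
    refine h2.trans (mul_le_mul_of_nonneg_left (sol_avg_le hε c X J) ?_)
    exact avg_nonneg fun _ _ => sq_nonneg _
  have h3 := Rg_nonneg hε c X J
  rcases h3.eq_or_lt with h | h
  · rw [← h]; exact avg_nonneg fun _ _ => sq_nonneg _
  · nlinarith

/-- the half sum of the averages over two halves -/
structure Halves (J Jl Jr : Finset ℤ) (h : ℤ → ℝ) : Prop where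
  mean : ∀ f : ℤ → ℝ, avg J f = (avg Jl f + avg Jr f) / 2
  left : ∀ x ∈ Jl, h x = 1
  right : ∀ x ∈ Jr, h x = -1

/-- half of the difference of the Gram matrices of the halves -/
def gd2 (c : Ω → ℤ → ℝ) (J : Finset ℤ) (h : ℤ → ℝ) : ℝ :=
  ∑ i, ∑ j, avg J (fun x => h x * (c i x * c j x)) ^ 2

theorem gd2_nonneg (c : Ω → ℤ → ℝ) (J : Finset ℤ) (h : ℤ → ℝ) : 0 ≤ gd2 c J h :=
  sum_nonneg fun _ _ => sum_nonneg fun _ _ => sq_nonneg _

theorem bil_sq_le (c : Ω → ℤ → ℝ) (J : Finset ℤ) (h : ℤ → ℝ) (w v : Ω → ℝ) :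
    avg J (fun x => h x * (cf c w x * cf c v x)) ^ 2 ≤ gd2 c J h * (n2 w * n2 v) := by
  have h1 : avg J (fun x => h x * (cf c w x * cf c v x)) =
      ∑ i, ∑ j, (w i * v j) * avg J (fun x => h x * (c i x * c j x)) := by
    have h2 : ∀ x ∈ J, h x * (cf c w x * cf c v x) =
        ∑ i, ∑ j, (w i * v j) * (h x * (c i x * c j x)) := by
      intro x _
      unfold cf
      rw [sum_mul_sum, mul_sum]
      refine sum_congr rfl fun i _ => ?_
      rw [mul_sum]
      exact sum_congr rfl fun j _ => by ring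
    rw [avg_congr h2, avg_sum]
    refine sum_congr rfl fun i _ => ?_
    rw [avg_sum]
    exact sum_congr rfl fun j _ => avg_smul _ _ _
  rw [h1]
  have h2 : ∀ F : Ω → Ω → ℝ, ∑ i, ∑ j, F i j = ∑ p : Ω × Ω, F p.1 p.2 := by
    intro F
    rw [← univ_product_univ, sum_product]
  rw [h2]
  have h3 := sum_mul_sq_le_sq_mul_sq (univ : Finset (Ω × Ω)) (fun p => w p.1 * v p.2)
    (fun p => avg J (fun x => h x * (c p.1 x * c p.2 x)))
  refine h3.trans (le_of_eq ?_)
  have h4 : ∑ p : Ω × Ω, (w p.1 * v p.2) ^ 2 = n2 w * n2 v := by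
    rw [← univ_product_univ, sum_product]
    unfold n2
    rw [sum_mul_sum]
    exact sum_congr rfl fun i _ => sum_congr rfl fun j _ => by ring
  rw [h4, gd2, h2, mul_comm]

/-- **Split**: Bessel with a moving normaliser. -/
theorem split {ε : ℝ} (hε : 0 < ε) (c : Ω → ℤ → ℝ) (X : ℤ → ℝ) {J Jl Jr : Finset ℤ} {h : ℤ → ℝ}
    (H : Halves J Jl Jr h) :
    Rg ε c (fun x => h x * X x) J ≤ (Rg ε c X Jl + Rg ε c X Jr) - 2 * Rg ε c X J +
      4 * (ε ^ 2)⁻¹ * gd2 c J h * Rg ε c X J := by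
  set w := sol ε c X J with hw
  set v := sol ε c (fun x => h x * X x) J with hv
  set A := Rg ε c X J with hA
  set B := Rg ε c (fun x => h x * X x) J with hB
  set Dv := avg J (fun x => h x * (cf c w x * cf c v x)) with hDv
  have hA0 : 0 ≤ A := Rg_nonneg hε _ _ _
  have hB0 : 0 ≤ B := Rg_nonneg hε _ _ _
  have hl := val_le hε c X Jl (fun i => w i + v i)
  have hr := val_le hε c X Jr (fun i => w i - v i)
  have eA : val ε c X J w = A := val_sol hε c X J
  have eB : val ε c (fun x => h x * X x) J v = B := val_sol hε c _ J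
  -- the identity
  have key : val ε c X Jl (fun i => w i + v i) + val ε c X Jr (fun i => w i - v i) =
      2 * (A + B - 2 * Dv) := by
    rw [← eA, ← eB]
    unfold val
    have en : n2 (fun i => w i + v i) + n2 (fun i => w i - v i) = 2 * (n2 w + n2 v) := by
      unfold n2
      rw [← sum_add_distrib, ← sum_add_distrib, mul_sum]
      exact sum_congr rfl fun i _ => by ring
    have e1 : avg Jl (fun x => X x * cf c (fun i => w i + v i) x) +
        avg Jr (fun x => X x * cf c (fun i => w i - v i) x) =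
        2 * (avg J (fun x => X x * cf c w x) + avg J (fun x => h x * X x * cf c v x)) := by
      rw [← avg_add J, H.mean]
      have a1 : avg Jl (fun x => X x * cf c (fun i => w i + v i) x) =
          avg Jl (fun x => X x * cf c w x + h x * X x * cf c v x) :=
        avg_congr fun x hx => by rw [cf_add, H.left x hx]; ring
      have a2 : avg Jr (fun x => X x * cf c (fun i => w i - v i) x) =
          avg Jr (fun x => X x * cf c w x + h x * X x * cf c v x) :=
        avg_congr fun x hx => by rw [cf_sub, H.right x hx]; ring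
      rw [a1, a2]; ring
    have e2 : avg Jl (fun x => cf c (fun i => w i + v i) x ^ 2) +
        avg Jr (fun x => cf c (fun i => w i - v i) x ^ 2) =
        2 * (avg J (fun x => cf c w x ^ 2) + avg J (fun x => cf c v x ^ 2) + 2 * Dv) := by
      rw [hDv, ← avg_smul J, ← avg_add J, ← avg_add J, H.mean]
      have a1 : avg Jl (fun x => cf c (fun i => w i + v i) x ^ 2) =
          avg Jl (fun x => cf c w x ^ 2 + cf c v x ^ 2 + 2 * (h x * (cf c w x * cf c v x))) :=
        avg_congr fun x hx => by rw [cf_add, H.left x hx]; ring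
      have a2 : avg Jr (fun x => cf c (fun i => w i - v i) x ^ 2) =
          avg Jr (fun x => cf c w x ^ 2 + cf c v x ^ 2 + 2 * (h x * (cf c w x * cf c v x))) :=
        avg_congr fun x hx => by rw [cf_sub, H.right x hx]; ring
      rw [a1, a2]; ring
    linear_combination 2 * e1 - e2 - ε * en
  -- the error
  have h1 : Dv ^ 2 ≤ gd2 c J h * (n2 w * n2 v) := bil_sq_le c J h w v
  have h2 : ε * n2 w ≤ A := sol_n2_le hε c X J
  have h3 : ε * n2 v ≤ B := sol_n2_le hε c _ J
  have h4 : Dv ^ 2 ≤ (ε ^ 2)⁻¹ * gd2 c J h * (A * B) := by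
    have h5 : (ε * n2 w) * (ε * n2 v) ≤ A * B :=
      mul_le_mul h2 h3 (mul_nonneg hε.le (n2_nonneg _)) hA0
    have h6 : n2 w * n2 v = (ε ^ 2)⁻¹ * ((ε * n2 w) * (ε * n2 v)) := by field_simp
    rw [h6] at h1
    refine h1.trans ?_
    have h7 : 0 ≤ gd2 c J h * (ε ^ 2)⁻¹ := mul_nonneg (gd2_nonneg _ _ _) (by positivity)
    calc gd2 c J h * ((ε ^ 2)⁻¹ * ((ε * n2 w) * (ε * n2 v)))
        = gd2 c J h * (ε ^ 2)⁻¹ * ((ε * n2 w) * (ε * n2 v)) := by ring
      _ ≤ gd2 c J h * (ε ^ 2)⁻¹ * (A * B) := mul_le_mul_of_nonneg_left h5 h7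
      _ = _ := by ring
  have h5 : 4 * Dv ≤ B + 4 * (ε ^ 2)⁻¹ * gd2 c J h * A := by
    set t := (ε ^ 2)⁻¹ * gd2 c J h * A with ht
    have ht0 : 0 ≤ t := mul_nonneg (mul_nonneg (by positivity) (gd2_nonneg _ _ _)) hA0
    have h6 : Dv ^ 2 ≤ t * B := by rw [ht]; linarith
    have h7 : (4 * Dv) ^ 2 ≤ (B + 4 * t) ^ 2 := by nlinarith [sq_nonneg (B - 4 * t)]
    have h8 := abs_le_of_sq_le_sq h7 (by positivity)
    have h9 := (le_abs_self (4 * Dv)).trans h8
    rw [ht] at h9
    linarith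
  linarith

end

end Vale.Agent.P141.H337
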