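import Vale.Agent.P141.H337.Ridge2

/-!
# P141, line W, end lemma: the square function of a tree with a moving normaliser
-/

namespace Vale.Agent.P141.H337

open Finset Vale.Agent.P141.PL.H315

noncomputable section

variable {Ω : Type*} [Fintype Ω]

/-- the square norm of the Gram matrix -/
def Gm (c : Ω → ℤ → ℝ) (J : Finset ℤ) : ℝ := ∑ i, ∑ j, avg J (fun x => c i x * c j x) ^ 2

theorem Gm_nonneg (c : Ω → ℤ → ℝ) (J : Finset ℤ) : 0 ≤ Gm c J :=
  sum_nonneg fun _ _ => sum_nonneg fun _ _ => sq_nonneg _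

theorem gd2_eq (c : Ω → ℤ → ℝ) {J Jl Jr : Finset ℤ} {h : ℤ → ℝ} (H : Halves J Jl Jr h) :
    2 * gd2 c J h = Gm c Jl + Gm c Jr - 2 * Gm c J := by
  unfold gd2 Gm
  rw [mul_sum, mul_sum, ← sum_add_distrib, ← sum_sub_distrib]
  refine sum_congr rfl fun i _ => ?_
  rw [mul_sum, mul_sum, ← sum_add_distrib, ← sum_sub_distrib]
  refine sum_congr rfl fun j _ => ?_
  have h1 := H.mean (fun x => c i x * c j x)
  have h2 := H.mean (fun x => h x * (c i x * c j x))
  have h3 : avg Jl (fun x => h x * (c i x * c j x)) = avg Jl (fun x => c i x * c j x) :=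
    avg_congr fun x hx => by rw [H.left x hx, one_mul]
  have h4 : avg Jr (fun x => h x * (c i x * c j x)) = - avg Jr (fun x => c i x * c j x) := by
    have : avg Jr (fun x => h x * (c i x * c j x)) = avg Jr (fun x => (-1) * (c i x * c j x)) :=
      avg_congr fun x hx => by rw [H.right x hx]
    rw [this, avg_smul]; ring
  rw [h2, h3, h4, h1]
  ring

theorem Gm_cr (c : Ω → ℤ → ℝ) (A : Finset Ω) (J : Finset ℤ) :
    Gm (cr A c) J = ∑ i ∈ A, ∑ j ∈ A, avg J (fun x => c i x * c j x) ^ 2 := by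
  classical
  unfold Gm
  have h : ∀ i j, avg J (fun x => cr A c i x * cr A c j x) ^ 2 =
      if i ∈ A then (if j ∈ A then avg J (fun x => c i x * c j x) ^ 2 else 0) else 0 := by
    intro i j
    split_ifs with hi hj
    · congr 1; exact avg_congr fun x _ => by rw [cr_mem c hi, cr_mem c hj]
    · rw [avg_congr (g := fun _ => (0 : ℝ)) fun x _ => by rw [cr_not_mem c hj]; ring]
      unfold avg; simp
    · rw [avg_congr (g := fun _ => (0 : ℝ)) fun x _ => by rw [cr_not_mem c hi]; ring]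
      unfold avg; simp
  have h2 : ∀ i, ∑ j, avg J (fun x => cr A c i x * cr A c j x) ^ 2 =
      if i ∈ A then ∑ j ∈ A, avg J (fun x => c i x * c j x) ^ 2 else 0 := by
    intro i
    rw [sum_congr rfl fun j _ => h i j]
    split_ifs with hi
    · rw [sum_ite_mem, univ_inter]
    · simp
  rw [sum_congr rfl fun i _ => h2 i, sum_ite_mem, univ_inter]

theorem Gm_mono (c : Ω → ℤ → ℝ) {A B : Finset Ω} (h : A ⊆ B) (J : Finset ℤ) :
    Gm (cr A c) J ≤ Gm (cr B c) J := by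
  rw [Gm_cr, Gm_cr]
  refine (sum_le_sum fun i _ => sum_le_sum_of_subset_of_nonneg h fun _ _ _ => sq_nonneg _).trans ?_
  exact sum_le_sum_of_subset_of_nonneg h fun _ _ _ => sum_nonneg fun _ _ => sq_nonneg _

omit [Fintype Ω] in
theorem sum_gram_le (c : Ω → ℤ → ℝ) (A B : Finset Ω) (J : Finset ℤ) :
    ∑ i ∈ A, ∑ j ∈ B, avg J (fun x => c i x * c j x) ^ 2 ≤ ms c A J * ms c B J := by
  unfold ms
  rw [sum_mul_sum]
  exact sum_le_sum fun i _ => sum_le_sum fun j _ => avg_mul_sq_le _ _ _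

theorem Gm_le (c : Ω → ℤ → ℝ) (A : Finset Ω) (J : Finset ℤ) :
    Gm (cr A c) J ≤ ms c A J ^ 2 := by
  rw [Gm_cr, sq]; exact sum_gram_le c A A J

theorem Gm_drop [DecidableEq Ω] (c : Ω → ℤ → ℝ) (A D : Finset Ω) (J : Finset ℤ) :
    Gm (cr A c) J ≤ Gm (cr (A \ D) c) J + 2 * ms c (A ∩ D) J * ms c A J := by
  rw [Gm_cr, Gm_cr]
  set G : Ω → Ω → ℝ := fun i j => avg J (fun x => c i x * c j x) ^ 2 with hG
  have hs : ∀ F : Ω → ℝ, ∑ i ∈ A, F i = ∑ i ∈ A \ D, F i + ∑ i ∈ A ∩ D, F i := by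
    intro F
    rw [← sum_inter_add_sum_sdiff A D F, add_comm]
  have h1 : ∑ i ∈ A, ∑ j ∈ A, G i j = ∑ i ∈ A \ D, ∑ j ∈ A \ D, G i j +
      ∑ i ∈ A \ D, ∑ j ∈ A ∩ D, G i j + ∑ i ∈ A ∩ D, ∑ j ∈ A, G i j := by
    rw [hs, ← sum_add_distrib]
    congr 1
    exact sum_congr rfl fun i _ => hs _
  have h2 : ∑ i ∈ A \ D, ∑ j ∈ A ∩ D, G i j ≤ ms c (A ∩ D) J * ms c A J := by
    refine (sum_le_sum_of_subset_of_nonneg (sdiff_subset : A \ D ⊆ A) fun _ _ _ =>
      sum_nonneg fun _ _ => sq_nonneg _).trans ?_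
    rw [mul_comm]
    exact sum_gram_le c A (A ∩ D) J
  have h3 : ∑ i ∈ A ∩ D, ∑ j ∈ A, G i j ≤ ms c (A ∩ D) J * ms c A J := sum_gram_le c _ _ J
  show ∑ i ∈ A, ∑ j ∈ A, G i j ≤ _
  rw [h1]
  linarith

theorem Rg_congr {ε : ℝ} (hε : 0 < ε) (c : Ω → ℤ → ℝ) {X X' : ℤ → ℝ} {J : Finset ℤ}
    (h : ∀ x ∈ J, X x = X' x) : Rg ε c X J = Rg ε c X' J := by
  have hv : ∀ w, val ε c X J w = val ε c X' J w := by
    intro w
    unfold val
    rw [avg_congr (f := fun x => X x * cf c w x) (g := fun x => X' x * cf c w x)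
      fun x hx => by rw [h x hx]]
  apply le_antisymm
  · rw [← val_sol hε c X J, hv]; exact val_le hε _ _ _ _
  · rw [← val_sol hε c X' J, ← hv]; exact val_le hε _ _ _ _

/-! ### The tree -/

/-- the cells of scale `k` under the cell `(K, b0)` -/
def cel (K : ℕ) (b0 : ℤ) (k : ℕ) : Finset ℤ := Ico (2 ^ (K - k) * b0) (2 ^ (K - k) * (b0 + 1))

theorem sum_pairs (a b : ℤ) (F : ℤ → ℝ) :
    ∑ z ∈ Ico (2 * a) (2 * b), F z = ∑ z ∈ Ico a b, (F (2 * z) + F (2 * z + 1)) := by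
  rcases le_or_gt b a with h | h
  · rw [Ico_eq_empty (by omega), Ico_eq_empty (by omega)]; simp
  · obtain ⟨n, rfl⟩ : ∃ n : ℕ, b = a + n := ⟨(b - a).toNat, by omega⟩
    clear h
    induction n with
    | zero => simp
    | succ n ih =>
      have h1 : Ico (2 * a) (2 * (a + ((n + 1 : ℕ) : ℤ))) =
          insert (2 * (a + n) + 1) (insert (2 * (a + n)) (Ico (2 * a) (2 * (a + n)))) := by
        ext z; simp only [mem_Ico, mem_insert]; push_cast; omega
      have h2 : Ico a (a + ((n + 1 : ℕ) : ℤ)) = insert (a + n) (Ico a (a + n)) := by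
        ext z; simp only [mem_Ico, mem_insert]; push_cast; omega
      rw [h1, h2, sum_insert, sum_insert, sum_insert, ih]
      · ring
      · simp
      · simp
      · simp only [mem_insert, mem_Ico]; omega

theorem sum_cel {K : ℕ} {b0 : ℤ} {k : ℕ} (hk : k < K) (F : ℤ → ℝ) :
    ∑ b ∈ cel K b0 k, F b = ∑ b ∈ cel K b0 (k + 1), (F (2 * b) + F (2 * b + 1)) := by
  unfold cel
  have h : K - k = (K - (k + 1)) + 1 := by omega
  rw [h, pow_succ, mul_assoc, mul_assoc, mul_left_comm _ 2 b0, mul_left_comm _ 2 (b0 + 1),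
    sum_pairs]

theorem card_cel {K : ℕ} {b0 : ℤ} {k : ℕ} (hk : k ≤ K) :
    (2 : ℝ) ^ k * (cel K b0 k).card = 2 ^ K := by
  unfold cel
  rw [Int.card_Ico]
  have : (2 ^ (K - k) * (b0 + 1) - 2 ^ (K - k) * b0 : ℤ) = ((2 ^ (K - k) : ℕ) : ℤ) := by
    push_cast; ring
  rw [this, Int.toNat_natCast]
  push_cast
  rw [← pow_add]
  congr 1; omega

/-- **Telescoping.** -/
theorem tele {K : ℕ} {b0 : ℤ} (U err g : ℕ → ℤ → ℝ)
    (hg : ∀ k < K, ∀ b ∈ cel K b0 (k + 1), g (k + 1) b ≤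
      (U k (2 * b) + err k (2 * b)) + (U k (2 * b + 1) + err k (2 * b + 1)) - 2 * U (k + 1) b)
    (hU : ∀ b, 0 ≤ U K b) :
    ∑ k ∈ range K, ∑ b ∈ cel K b0 (k + 1), 2 ^ k * g (k + 1) b ≤
      ∑ b ∈ cel K b0 0, U 0 b + ∑ k ∈ range K, ∑ b ∈ cel K b0 k, 2 ^ k * err k b := by
  have key : ∀ m ≤ K, ∑ k ∈ range m, ∑ b ∈ cel K b0 (k + 1), 2 ^ k * g (k + 1) b ≤
      ∑ b ∈ cel K b0 0, U 0 b + ∑ k ∈ range m, ∑ b ∈ cel K b0 k, 2 ^ k * err k b -
        ∑ b ∈ cel K b0 m, 2 ^ m * U m b := by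
    intro m
    induction m with
    | zero => intro _; simp
    | succ m ih =>
      intro hm
      have h1 := ih (by omega)
      rw [sum_range_succ, sum_range_succ]
      have h2 : ∑ b ∈ cel K b0 (m + 1), 2 ^ m * g (m + 1) b ≤
          ∑ b ∈ cel K b0 (m + 1), ((2 ^ m * (U m (2 * b) + err m (2 * b)) +
            2 ^ m * (U m (2 * b + 1) + err m (2 * b + 1))) - 2 ^ (m + 1) * U (m + 1) b) := by
        refine sum_le_sum fun b hb => ?_
        have h3 := mul_le_mul_of_nonneg_left (hg m (by omega) b hb)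
          (by positivity : (0 : ℝ) ≤ 2 ^ m)
        rw [pow_succ]
        linarith
      rw [sum_sub_distrib, ← sum_cel (by omega : m < K)
        (fun b => 2 ^ m * (U m b + err m b))] at h2
      have h4 : ∑ b ∈ cel K b0 m, (2 : ℝ) ^ m * (U m b + err m b) =
          ∑ b ∈ cel K b0 m, 2 ^ m * U m b + ∑ b ∈ cel K b0 m, 2 ^ m * err m b := by
        rw [← sum_add_distrib]; exact sum_congr rfl fun b _ => by ring
      rw [h4] at h2
      linarith
  have h1 := key K le_rfl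
  have h2 : 0 ≤ ∑ b ∈ cel K b0 K, (2 : ℝ) ^ K * U K b :=
    sum_nonneg fun b _ => mul_nonneg (by positivity) (hU b)
  linarith

theorem halves (k : ℕ) (b : ℤ) {h : ℤ → ℝ} (h0 : ∀ x ∈ ivm k (2 * b), h x = 1)
    (h1 : ∀ x ∈ ivm k (2 * b + 1), h x = -1) :
    Halves (ivm (k + 1) b) (ivm k (2 * b)) (ivm k (2 * b + 1)) h := by
  refine ⟨fun f => ?_, h0, h1⟩
  unfold avg
  rw [card_ivm, card_ivm, card_ivm]
  have h2 : ∑ x ∈ ivm (k + 1) b, f x = ∑ x ∈ ivm k (2 * b), f x + ∑ x ∈ ivm k (2 * b + 1), f x := by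
    have := sum_long k (2 * b) (2 * (b + 1)) f
    have e1 : Ico (2 ^ k * (2 * b)) (2 ^ k * (2 * (b + 1))) = ivm (k + 1) b := by
      unfold ivm; rw [pow_succ]; congr 1 <;> ring
    rw [e1, sum_pairs] at this
    rw [this]
    have e2 : Ico b (b + 1) = {b} := by ext z; simp only [mem_Ico, mem_singleton]; omega
    rw [e2, sum_singleton]
  rw [h2, pow_succ]
  push_cast
  field_simp

/-- the mass dropped at the cell `(k, b)` -/
def dm [DecidableEq Ω] (c : Ω → ℤ → ℝ) (A : ℕ → ℤ → Finset Ω) (k : ℕ) (b : ℤ) : ℝ :=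
  ms c (A (k + 1) (b / 2) \ A k b) (ivm k b)

/-- **The square function with a moving normaliser.** -/
theorem tree_bessel [DecidableEq Ω] {ε e L : ℝ} (hε : 0 < ε) (he : 0 ≤ e)
    (c : Ω → ℤ → ℝ) (A : ℕ → ℤ → Finset Ω) (X : ℕ → ℤ → ℝ) (h : ℕ → ℤ → ℝ) {K : ℕ} {b0 : ℤ}
    (T : ℕ → Finset ℤ)
    (hh : ∀ k < K, ∀ b ∈ cel K b0 (k + 1), (∀ x ∈ ivm k (2 * b), h (k + 1) x = 1) ∧
      ∀ x ∈ ivm k (2 * b + 1), h (k + 1) x = -1)
    (hX : ∀ k ≤ K, ∀ b ∈ cel K b0 k, avg (ivm k b) (fun x => X k x ^ 2) ≤ e)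
    (hX' : ∀ k < K, ∀ b ∈ cel K b0 k, avg (ivm k b) (fun x => X (k + 1) x ^ 2) ≤ e)
    (hT : ∀ k < K, ∀ b ∈ cel K b0 k, b ∉ T k → ∀ x ∈ ivm k b, X (k + 1) x = X k x)
    (hL : ∀ k ≤ K, ∀ b ∈ cel K b0 k, ms c (A k b) (ivm k b) ≤ L)
    (hL' : ∀ k < K, ∀ b ∈ cel K b0 k, ms c (A (k + 1) (b / 2)) (ivm k b) ≤ L) :
    ∑ k ∈ range K, ∑ b ∈ cel K b0 (k + 1),
      2 ^ k * Rg ε (cr (A (k + 1) b) c) (fun x => h (k + 1) x * X (k + 1) x) (ivm (k + 1) b) ≤
      e * (2 ^ K + ∑ k ∈ range K, ∑ b ∈ (cel K b0 k).filter (· ∈ T k), 2 ^ k +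
        (1 + L / ε) / ε * ∑ k ∈ range K, ∑ b ∈ cel K b0 k, 2 ^ k * dm c A k b +
        2 * (ε ^ 2)⁻¹ * (2 ^ K * L ^ 2 +
          2 * L * ∑ k ∈ range K, ∑ b ∈ cel K b0 k, 2 ^ k * dm c A k b)) := by
  set DD : ℝ := ∑ k ∈ range K, ∑ b ∈ cel K b0 k, 2 ^ k * dm c A k b with hDD
  have div2 : ∀ b : ℤ, (2 * b) / 2 = b ∧ (2 * b + 1) / 2 = b := fun b => by omega
  -- children are cells
  have hch : ∀ k < K, ∀ b ∈ cel K b0 (k + 1), 2 * b ∈ cel K b0 k ∧ 2 * b + 1 ∈ cel K b0 k := by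
    intro k hk b hb
    unfold cel at hb ⊢
    have e1 : K - k = (K - (k + 1)) + 1 := by omega
    rw [mem_Ico] at hb
    rw [e1, pow_succ, mem_Ico, mem_Ico]
    refine ⟨⟨?_, ?_⟩, ⟨?_, ?_⟩⟩ <;> nlinarith [hb.1, hb.2]
  have dm0 : ∀ k b, 0 ≤ dm c A k b := fun k b => ms_nonneg _ _ _
  -- the Gram energies
  set U2 : ℕ → ℤ → ℝ := fun k b => Gm (cr (A k b) c) (ivm k b) with hU2
  have hG : ∀ k < K, ∀ b ∈ cel K b0 (k + 1),
      2 * gd2 (cr (A (k + 1) b) c) (ivm (k + 1) b) (h (k + 1)) ≤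
      (U2 k (2 * b) + 2 * L * dm c A k (2 * b)) +
        (U2 k (2 * b + 1) + 2 * L * dm c A k (2 * b + 1)) - 2 * U2 (k + 1) b := by
    intro k hk b hb
    have H := halves k b (hh k hk b hb).1 (hh k hk b hb).2
    rw [gd2_eq _ H]
    have h1 : ∀ b' ∈ cel K b0 k, b' / 2 = b →
        Gm (cr (A (k + 1) b) c) (ivm k b') ≤ U2 k b' + 2 * L * dm c A k b' := by
      intro b' hb' e
      have h2 := Gm_drop c (A (k + 1) b) (A (k + 1) b \ A k b') (ivm k b')
      have h3 : A (k + 1) b \ (A (k + 1) b \ A k b') ⊆ A k b' := by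
        intro i hi; simp only [mem_sdiff] at hi; tauto
      have h4 := Gm_mono c h3 (ivm k b')
      have h5 : A (k + 1) b ∩ (A (k + 1) b \ A k b') = A (k + 1) b \ A k b' := by
        ext i; simp only [mem_inter, mem_sdiff]; tauto
      rw [h5] at h2
      have h6 := hL' k hk b' hb'
      rw [e] at h6
      have h7 : dm c A k b' = ms c (A (k + 1) b \ A k b') (ivm k b') := by unfold dm; rw [e]
      rw [h7]
      have h8 := ms_nonneg c (A (k + 1) b \ A k b') (ivm k b')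
      have h9 := ms_nonneg c (A (k + 1) b) (ivm k b')
      calc _ ≤ Gm (cr (A k b') c) (ivm k b') +
            2 * ms c (A (k + 1) b \ A k b') (ivm k b') * ms c (A (k + 1) b) (ivm k b') := by
              linarith
        _ ≤ _ := by
              have := mul_le_mul_of_nonneg_left h6 h8
              simp only [hU2]; linarith
    have c1 := h1 _ (hch k hk b hb).1 (div2 b).1
    have c2 := h1 _ (hch k hk b hb).2 (div2 b).2
    simp only [hU2] at c1 c2 ⊢
    linarith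
  have hL0 : ∀ k ≤ K, ∀ b ∈ cel K b0 k, 0 ≤ L := fun k hk b hb =>
    (ms_nonneg _ _ _).trans (hL k hk b hb)
  have hGsum : ∑ k ∈ range K, ∑ b ∈ cel K b0 (k + 1),
      2 ^ k * (2 * gd2 (cr (A (k + 1) b) c) (ivm (k + 1) b) (h (k + 1))) ≤
      2 ^ K * L ^ 2 + 2 * L * DD := by
    refine (tele U2 (fun k b => 2 * L * dm c A k b) (fun k b =>
      2 * gd2 (cr (A k b) c) (ivm k b) (h k)) hG (fun b => Gm_nonneg _ _)).trans ?_
    refine add_le_add ?_ (le_of_eq ?_)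
    · have h1 : ∀ b ∈ cel K b0 0, U2 0 b ≤ L ^ 2 := fun b hb =>
        (Gm_le c _ _).trans (pow_le_pow_left₀ (ms_nonneg _ _ _) (hL 0 (Nat.zero_le _) b hb) 2)
      refine (sum_le_card_nsmul _ _ _ h1).trans (le_of_eq ?_)
      have := card_cel (K := K) (b0 := b0) (Nat.zero_le K)
      rw [pow_zero, one_mul] at this
      rw [nsmul_eq_mul, this]
    · rw [hDD, mul_sum]
      refine sum_congr rfl fun k _ => ?_
      rw [mul_sum]
      exact sum_congr rfl fun b _ => by ring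
  -- the ridge energies
  set U1 : ℕ → ℤ → ℝ := fun k b => Rg ε (cr (A k b) c) (X k) (ivm k b) with hU1
  set err : ℕ → ℤ → ℝ := fun k b =>
    (if b ∈ T k then e else 0) + e * ((1 + L / ε) / ε * dm c A k b) with herr
  set g : ℕ → ℤ → ℝ := fun k b =>
    Rg ε (cr (A k b) c) (fun x => h k x * X k x) (ivm k b) -
      4 * (ε ^ 2)⁻¹ * gd2 (cr (A k b) c) (ivm k b) (h k) * e with hg
  have hR : ∀ k < K, ∀ b ∈ cel K b0 (k + 1), g (k + 1) b ≤
      (U1 k (2 * b) + err k (2 * b)) + (U1 k (2 * b + 1) + err k (2 * b + 1)) -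
        2 * U1 (k + 1) b := by
    intro k hk b hb
    have H := halves k b (hh k hk b hb).1 (hh k hk b hb).2
    have hs := split hε (cr (A (k + 1) b) c) (X (k + 1)) H
    have h1 : ∀ b' ∈ cel K b0 k, b' / 2 = b →
        Rg ε (cr (A (k + 1) b) c) (X (k + 1)) (ivm k b') ≤ U1 k b' + err k b' := by
      intro b' hb' ed
      have hm0 := dm0 k b'
      have hLn := hL0 k hk.le b' hb'
      by_cases hT' : b' ∈ T k
      · have h2 := (Rg_le_energy hε (cr (A (k + 1) b) c) (X (k + 1)) (ivm k b')).trans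
          (hX' k hk b' hb')
        have h3 : 0 ≤ U1 k b' := Rg_nonneg hε _ _ _
        have h4 : 0 ≤ e * ((1 + L / ε) / ε * dm c A k b') := by positivity
        simp only [herr, if_pos hT']
        linarith
      · have h2 : Rg ε (cr (A (k + 1) b) c) (X (k + 1)) (ivm k b') =
            Rg ε (cr (A (k + 1) b) c) (X k) (ivm k b') := by
          exact Rg_congr hε _ (hT k hk b' hb' hT')
        rw [h2]
        have h3 := Rg_drop hε c (X k) (ivm k b') (A (k + 1) b) (A (k + 1) b \ A k b')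
        have h4 : A (k + 1) b \ (A (k + 1) b \ A k b') ⊆ A k b' := by
          intro i hi; simp only [mem_sdiff] at hi; tauto
        have h5 := Rg_mono hε c (X k) (ivm k b') h4
        have h6 : A (k + 1) b ∩ (A (k + 1) b \ A k b') = A (k + 1) b \ A k b' := by
          ext i; simp only [mem_inter, mem_sdiff]; tauto
        have h7 : ms c (A (k + 1) b \ A k b') (ivm k b') = dm c A k b' := by unfold dm; rw [ed]
        rw [h6, h7] at h3
        have h8 : dm c A k b' ≤ L := by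
          have h9 := hL' k hk b' hb'
          refine le_trans ?_ h9
          unfold dm ms
          exact sum_le_sum_of_subset_of_nonneg sdiff_subset fun _ _ _ =>
            avg_nonneg fun _ _ => sq_nonneg _
        have h9 : dm c A k b' / ε + (dm c A k b' / ε) ^ 2 ≤ (1 + L / ε) / ε * dm c A k b' := by
          have h10 : (dm c A k b' / ε) ^ 2 ≤ L / ε * (dm c A k b' / ε) := by
            rw [sq]
            exact mul_le_mul_of_nonneg_right (div_le_div_of_nonneg_right h8 hε.le)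
              (by positivity)
          calc dm c A k b' / ε + (dm c A k b' / ε) ^ 2
              ≤ dm c A k b' / ε + L / ε * (dm c A k b' / ε) := by linarith
            _ = _ := by ring
        have h10 : avg (ivm k b') (fun x => X k x ^ 2) *
            (dm c A k b' / ε + (dm c A k b' / ε) ^ 2) ≤ e * ((1 + L / ε) / ε * dm c A k b') :=
          mul_le_mul (hX k hk.le b' hb') h9 (by positivity) he
        simp only [herr, if_neg hT', zero_add, hU1]
        linarith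
    have c1 := h1 _ (hch k hk b hb).1 (div2 b).1
    have c2 := h1 _ (hch k hk b hb).2 (div2 b).2
    have h2 : Rg ε (cr (A (k + 1) b) c) (X (k + 1)) (ivm (k + 1) b) ≤ e :=
      (Rg_le_energy hε _ _ _).trans (hX (k + 1) hk b hb)
    have h3 : 0 ≤ 4 * (ε ^ 2)⁻¹ * gd2 (cr (A (k + 1) b) c) (ivm (k + 1) b) (h (k + 1)) :=
      mul_nonneg (by positivity) (gd2_nonneg _ _ _)
    have h4 := mul_le_mul_of_nonneg_left h2 h3
    simp only [hg, hU1] at c1 c2 ⊢
    linarith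
  have hRsum := tele U1 err g hR (fun b => Rg_nonneg hε _ _ _)
  -- assemble
  have h1 : ∑ b ∈ cel K b0 0, U1 0 b ≤ 2 ^ K * e := by
    have h1 : ∀ b ∈ cel K b0 0, U1 0 b ≤ e := fun b hb =>
      (Rg_le_energy hε _ _ _).trans (hX 0 (Nat.zero_le _) b hb)
    refine (sum_le_card_nsmul _ _ _ h1).trans (le_of_eq ?_)
    have := card_cel (K := K) (b0 := b0) (Nat.zero_le K)
    rw [pow_zero, one_mul] at this
    rw [nsmul_eq_mul, this]
  have h2 : ∑ k ∈ range K, ∑ b ∈ cel K b0 k, 2 ^ k * err k b =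
      e * (∑ k ∈ range K, ∑ b ∈ (cel K b0 k).filter (· ∈ T k), 2 ^ k +
        (1 + L / ε) / ε * DD) := by
    rw [hDD, mul_add, mul_sum, mul_sum, mul_sum, ← sum_add_distrib]
    refine sum_congr rfl fun k _ => ?_
    rw [mul_sum, mul_sum, mul_sum, sum_filter, ← sum_add_distrib]
    refine sum_congr rfl fun b _ => ?_
    simp only [herr]
    split_ifs <;> ring
  have h3 : ∑ k ∈ range K, ∑ b ∈ cel K b0 (k + 1),
      2 ^ k * Rg ε (cr (A (k + 1) b) c) (fun x => h (k + 1) x * X (k + 1) x) (ivm (k + 1) b) =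
      ∑ k ∈ range K, ∑ b ∈ cel K b0 (k + 1), 2 ^ k * g (k + 1) b +
      2 * (ε ^ 2)⁻¹ * e * ∑ k ∈ range K, ∑ b ∈ cel K b0 (k + 1),
        2 ^ k * (2 * gd2 (cr (A (k + 1) b) c) (ivm (k + 1) b) (h (k + 1))) := by
    rw [mul_sum, ← sum_add_distrib]
    refine sum_congr rfl fun k _ => ?_
    rw [mul_sum, ← sum_add_distrib]
    refine sum_congr rfl fun b _ => ?_
    simp only [hg]
    ring
  rw [h3]
  have h4 := mul_le_mul_of_nonneg_left hGsum (by positivity : 0 ≤ 2 * (ε ^ 2)⁻¹ * e)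
  rw [h2] at hRsum
  calc _ ≤ (2 ^ K * e + e * (∑ k ∈ range K, ∑ b ∈ (cel K b0 k).filter (· ∈ T k), 2 ^ k +
        (1 + L / ε) / ε * DD)) + 2 * (ε ^ 2)⁻¹ * e * (2 ^ K * L ^ 2 + 2 * L * DD) := by
        linarith
    _ = _ := by ring

end

end Vale.Agent.P141.H337
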