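import Vale.Agent.P141.PL.H620.Full
import Vale.Agent.P141.PL.H620.UnifNode

/-!
# P141, line W: the bottom of the chain, without any dependence on the number of scales

`RootQ q n P`: the root estimate for functions whose `L^q` window averages are `≤ 1` on all the
nodes; no bound on the height of the functions.

* `node_of_rootQ`: `RootQ q n P` for some `q` with `d j * q < 1` gives `Node n (C P) d`,
  `C` independent of `n` and `P`;
* `bounded_of_rootQ`: if the constants `P` do not depend on `n`, then the trilinear Hilbert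
  transform is bounded at every Hölder tuple with `q < p_i < ∞`, `1 < r`, `1 / r' < 1 / q`;
* `bounded_444`: `L⁴ × L⁴ × L⁴ → L^{4/3}` as soon as `q < 4`.
-/

namespace Vale.Agent.P141.H337

open Finset Vale.Agent.P141.PL Vale.Agent.P141.PL.H620 Vale.Agent.P141.PL.H571
open scoped ENNReal SchwartzMap

/-- **ROOT ESTIMATE, `L^q` sizes**: nodes below the root `(K, V)`, closed under ancestors, window
`L^q` averages `≤ 1` on all the nodes -/
def RootQ (q : ℝ) (n : ℕ) (P : ℝ) : Prop :=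
  ∀ f : Fin 4 → ℤ → ℝ, (∀ j, (Function.support (f j)).Finite) → ∀ o : ℤ, (o = 1 ∨ o = -1) →
    ∀ K ≤ n, ∀ V : ℤ, ∀ 𝒩 : Finset (ℕ × ℤ),
    (∀ N ∈ 𝒩, 1 ≤ N.1 ∧ N.1 ≤ K ∧ N.2 / 2 ^ (K - N.1) = V) →
    (∀ N ∈ 𝒩, ∀ k', N.1 ≤ k' → k' ≤ K → (k', N.2 / 2 ^ (k' - N.1)) ∈ 𝒩) →
    (∀ N ∈ 𝒩, ∀ j, ∑ y ∈ W N.1 N.2, |f j y| ^ q ≤ 2 ^ (N.1 + 5)) →
    ∑ N ∈ 𝒩, ((4 : ℝ) ^ N.1)⁻¹ * |loc1 N.1 (nn o N.2 0 0) f| ≤ P * 2 ^ K

/-- **The density step without any loss in the number of scales.** -/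
theorem node_of_rootQ {q D : ℝ} (hq0 : 0 < q) (hD : D * q < 1) :
    ∃ C : ℝ, 0 < C ∧ ∀ d : Fin 4 → ℝ, (∀ j, 0 < d j) → (∀ j, d j ≤ D) → ∑ j, d j = 1 →
      ∀ (n : ℕ) (P : ℝ), 0 ≤ P → RootQ q n P → Node n (C * P) d := by
  classical
  obtain ⟨C, hC, htops⟩ := tops_unif (ι := Fin 4) hq0 hD
  refine ⟨C, hC, ?_⟩
  intro d hd hdD hd1 n P hP hroot f hf o ho V
  set w : ℕ → ℤ → ℝ := fun k v =>
    if 1 ≤ k then ((4 : ℝ) ^ k)⁻¹ * |loc1 k (nn o v 0 0) f| else 0 with hw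
  -- vanishing
  have hw0 : ∀ k v, k ≤ n → (∃ j, RM q (f j) n k v ≤ 0) → w k v = 0 := by
    rintro k v hk ⟨j, hj⟩
    have h1 := av_le_RM hq0 (f j) (le_refl k) hk v
    rw [Nat.sub_self, pow_zero, Int.ediv_one, le_antisymm hj (RM_nonneg _ _ _ _ _),
      Real.zero_rpow hq0.ne'] at h1
    have h2 : ∑ y ∈ W k v, |f j y| ^ q ≤ 0 := by
      rw [av, div_le_iff₀ (by positivity), zero_mul] at h1
      exact h1
    have h3 : ∀ y ∈ W k v, |f j y| = 0 := by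
      intro y hy
      have h4 := (sum_eq_zero_iff_of_nonneg fun z _ => Real.rpow_nonneg (abs_nonneg (f j z)) q).1
        (le_antisymm h2 (sum_nonneg fun z _ => Real.rpow_nonneg (abs_nonneg _) _)) y hy
      exact (Real.rpow_eq_zero (abs_nonneg _) hq0.ne').1 h4
    have h5 : ∑ y ∈ W k v, |f j y| ^ 2 = 0 :=
      sum_eq_zero fun y hy => by rw [h3 y hy]; norm_num
    have h6 := abs_loc1_le (k := k) (v := v) ho f
    rw [prod_eq_zero (mem_univ j) (by rw [h5, Real.sqrt_zero]), mul_zero] at h6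
    simp only [hw]
    split_ifs
    · rw [le_antisymm h6 (abs_nonneg _), mul_zero]
    · rfl
  -- the root estimate
  have hR : ∀ K ≤ n, ∀ V : ℤ, ∀ a : Fin 4 → ℝ, (∀ j, 0 < a j) → ∀ 𝒩 : Finset (ℕ × ℤ),
      (∀ N ∈ 𝒩, N.1 ≤ K ∧ N.2 / 2 ^ (K - N.1) = V ∧ ∀ j, RM q (f j) n N.1 N.2 ≤ a j) →
      ∑ N ∈ 𝒩, w N.1 N.2 ≤ P * 2 ^ K * ∏ j, a j := by
    intro K hK V a ha 𝒩 h𝒩
    set g : Fin 4 → ℤ → ℝ := fun j x => (a j)⁻¹ * f j x with hg
    -- the closure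
    set 𝒩' : Finset (ℕ × ℤ) := ((Icc 1 K).biUnion fun k =>
      (Ico (2 ^ (K - k) * V) (2 ^ (K - k) * (V + 1))).image fun v => (k, v)).filter
        fun N => ∀ j, RM q (f j) n N.1 N.2 ≤ a j with h𝒩'
    have hmem : ∀ N : ℕ × ℤ, N ∈ 𝒩' ↔ (1 ≤ N.1 ∧ N.1 ≤ K ∧ N.2 / 2 ^ (K - N.1) = V) ∧
        ∀ j, RM q (f j) n N.1 N.2 ≤ a j := by
      rintro ⟨k, v⟩
      rw [h𝒩', mem_filter, mem_biUnion]
      constructor
      · rintro ⟨⟨k', hk', hv'⟩, h2⟩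
        obtain ⟨v', hv'', hkv⟩ := mem_image.1 hv'
        rw [Prod.mk.injEq] at hkv
        obtain ⟨rfl, rfl⟩ := hkv
        rw [mem_cell] at hv''
        rw [mem_Icc] at hk'
        exact ⟨⟨hk'.1, hk'.2, hv''⟩, h2⟩
      · rintro ⟨⟨h1, h2, h3⟩, h4⟩
        exact ⟨⟨k, mem_Icc.2 ⟨h1, h2⟩, mem_image.2 ⟨v, mem_cell.2 h3, rfl⟩⟩, h4⟩
    -- averages of g
    have hgq : ∀ N ∈ 𝒩', ∀ j, ∑ y ∈ W N.1 N.2, |g j y| ^ q ≤ 2 ^ (N.1 + 5) := by
      intro N hN j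
      obtain ⟨⟨_, hNK, _⟩, hN2⟩ := (hmem N).1 hN
      have h1 := av_le_RM hq0 (f j) (le_refl N.1) (hNK.trans hK) N.2
      rw [Nat.sub_self, pow_zero, Int.ediv_one] at h1
      have h2 : RM q (f j) n N.1 N.2 ^ q ≤ a j ^ q :=
        Real.rpow_le_rpow (RM_nonneg _ _ _ _ _) (hN2 j) hq0.le
      have h3 := h1.trans h2
      rw [av, div_le_iff₀ (by positivity)] at h3
      have h4 : ∑ y ∈ W N.1 N.2, |g j y| ^ q = ((a j)⁻¹) ^ q * ∑ y ∈ W N.1 N.2, |f j y| ^ q := by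
        rw [mul_sum]
        refine sum_congr rfl fun y _ => ?_
        simp only [hg]
        rw [abs_mul, abs_of_pos (inv_pos.2 (ha j)),
          Real.mul_rpow (inv_pos.2 (ha j)).le (abs_nonneg _)]
      rw [h4]
      refine (mul_le_mul_of_nonneg_left h3 (Real.rpow_nonneg (inv_pos.2 (ha j)).le _)).trans
        (le_of_eq ?_)
      rw [← mul_assoc, ← Real.mul_rpow (inv_pos.2 (ha j)).le (ha j).le,
        inv_mul_cancel₀ (ha j).ne', Real.one_rpow, one_mul]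
    -- the main term
    have htot : ∑ N ∈ 𝒩', ((4 : ℝ) ^ N.1)⁻¹ * |loc1 N.1 (nn o N.2 0 0) g| ≤ P * 2 ^ K := by
      refine hroot g ?_ o ho K hK V 𝒩' ?_ ?_ hgq
      · intro j
        refine (hf j).subset fun x hx => ?_
        simp only [Function.mem_support] at hx ⊢
        intro h0
        apply hx
        simp only [hg, h0, mul_zero]
      · intro N hN
        exact ((hmem N).1 hN).1
      · intro N hN k' h1 h2
        obtain ⟨⟨h3, h4, h5⟩, h6⟩ := (hmem N).1 hN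
        rw [hmem]
        refine ⟨⟨h3.trans h1, h2, ?_⟩, fun j => (RM_mono hq0 (f j) h1 N.2).trans (h6 j)⟩
        simp only
        rw [← ediv_pow_add, ← h5]
        congr 2
        omega
    -- back to f
    have hfg : ∀ k v, |loc1 k (nn o v 0 0) f| = (∏ j, a j) * |loc1 k (nn o v 0 0) g| := by
      intro k v
      have h1 : loc1 k (nn o v 0 0) f = loc1 k (nn o v 0 0) (fun j x => a j * g j x) := by
        congr 1
        funext j x
        simp only [hg]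
        rw [mul_inv_cancel_left₀ (ha j).ne']
      rw [h1, loc1_smul, abs_mul, abs_of_pos (prod_pos fun j _ => ha j)]
    have hlast : ∑ N ∈ 𝒩, w N.1 N.2 ≤ ∑ N ∈ 𝒩', w N.1 N.2 := by
      have h1 : ∑ N ∈ 𝒩, w N.1 N.2 = ∑ N ∈ 𝒩.filter (fun N => 1 ≤ N.1), w N.1 N.2 := by
        rw [sum_filter]
        refine sum_congr rfl fun N _ => ?_
        simp only [hw]
        split_ifs <;> rfl
      rw [h1]
      refine sum_le_sum_of_subset_of_nonneg ?_ fun N _ _ => ?_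
      · intro N hN
        rw [mem_filter] at hN
        obtain ⟨h2, h3, h4⟩ := h𝒩 N hN.1
        exact (hmem N).2 ⟨⟨hN.2, h2, h3⟩, h4⟩
      · simp only [hw]
        split_ifs
        · positivity
        · exact le_rfl
    refine hlast.trans ?_
    have h2 : ∑ N ∈ 𝒩', w N.1 N.2 =
        (∏ j, a j) * ∑ N ∈ 𝒩', ((4 : ℝ) ^ N.1)⁻¹ * |loc1 N.1 (nn o N.2 0 0) g| := by
      rw [mul_sum]
      refine sum_congr rfl fun N hN => ?_
      simp only [hw]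
      rw [if_pos ((hmem N).1 hN).1.1, hfg]
      ring
    rw [h2, mul_comm]
    exact mul_le_mul_of_nonneg_right htot (prod_nonneg fun j _ => (ha j).le)
  -- conclusion
  have h := htops d hd hdD hd1 f hf n w P hP hw0 hR (Icc 1 n ×ˢ Icc (-(V : ℤ)) V) (by
    intro N hN
    exact (mem_Icc.1 (mem_product.1 hN).1).2)
  rw [sum_product] at h
  have h1 : ∑ k ∈ Icc 1 n, ((4 : ℝ) ^ k)⁻¹ * ∑ v ∈ Icc (-(V : ℤ)) V, |loc1 k (nn o v 0 0) f| =
      ∑ k ∈ Icc 1 n, ∑ v ∈ Icc (-(V : ℤ)) V, w k v := by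
    refine sum_congr rfl fun k hk => ?_
    rw [mul_sum]
    refine sum_congr rfl fun v _ => ?_
    simp only [hw]
    rw [if_pos (mem_Icc.1 hk).1]
  rw [h1]
  exact h

/-- the hypothesis `Hyp 0` (no logarithm) for all exponents with `d j * q < 1` -/
theorem hyp0_of_rootQ {q P : ℝ} (hq : 0 < q) (hP : 0 ≤ P) (h : ∀ n, RootQ q n P)
    {d : Fin 4 → ℝ} (hd : ∀ j, 0 < d j) (hdq : ∀ j, d j * q < 1) (hd1 : ∑ j, d j = 1) :
    ∃ C : ℝ, 0 ≤ C ∧ Hyp 0 d C := by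
  obtain ⟨i₀, -, hi₀⟩ := exists_max_image (univ : Finset (Fin 4)) d univ_nonempty
  obtain ⟨C, hC, H⟩ := node_of_rootQ hq (hdq i₀)
  refine ⟨C * P, by positivity, fun n => ?_⟩
  rw [pow_zero, mul_one]
  exact H d hd (fun j => hi₀ j (mem_univ j)) hd1 n P hP (h n)

/-- **Uniform root estimates imply that the trilinear Hilbert transform is bounded.** -/
theorem bounded_of_rootQ {q P : ℝ} (hq : 0 < q) (hP : 0 ≤ P) (H : ∀ n, RootQ q n P)
    {p₁ p₂ p₃ r : ℝ≥0∞} (h : IsHolderTuple p₁ p₂ p₃ r)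
    (t₁ : p₁ ≠ ∞) (t₂ : p₂ ≠ ∞) (t₃ : p₃ ≠ ∞) (hr : 1 < r)
    (hq₁ : (p₁⁻¹).toReal * q < 1) (hq₂ : (p₂⁻¹).toReal * q < 1) (hq₃ : (p₃⁻¹).toReal * q < 1)
    (hqr : (1 - (r⁻¹).toReal) * q < 1) : BoundedAt p₁ p₂ p₃ r := by
  have hd := dd_pos h t₁ t₂ t₃ hr
  have hs := dd_sum hd h.holder
  obtain ⟨C, hC0, hC⟩ := hyp0_of_rootQ hq hP H hd (by
    intro i
    fin_cases i
    · exact hqr
    · exact hq₁
    · exact hq₂
    · exact hq₃) hs
  obtain ⟨C', -, hC'⟩ := op_LL hd h.holder hC0 hC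
  refine ⟨ENNReal.ofReal C', ENNReal.ofReal_lt_top, fun f₁ f₂ f₃ => ?_⟩
  refine tht_le' f₁ f₂ f₃ fun ε R hε hR => ?_
  have h1 := hC' f₁ f₂ f₃ (Vale.Agent.P141.H115.nice_schwartz f₁)
    (Vale.Agent.P141.H115.nice_schwartz f₂) (Vale.Agent.P141.H115.nice_schwartz f₃) ε R hε hR
  have e : Vale.Agent.P141.H97.TT ε R 1 2 3 f₁ f₂ f₃ = truncTHT f₁ f₂ f₃ ε R := by
    funext x
    exact Vale.Agent.P141.H97.TT_eq ε R f₁ f₂ f₃ x
  rw [e] at h1
  simpa using h1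

/-- the tuple `(4, 4, 4, 4/3)` -/
theorem holder_444 : IsHolderTuple 4 4 4 (4 / 3) := by
  have e : ((4 : ℝ≥0∞) / 3)⁻¹ = 3 / 4 := by
    rw [ENNReal.inv_div (by simp) (by simp)]
  refine ⟨by norm_num, by norm_num, by norm_num, by simp, ?_, ?_⟩
  · exact ENNReal.div_lt_top (by simp) (by simp)
  · rw [e, ENNReal.div_eq_inv_mul]
    ring

theorem bounded_444 {q P : ℝ} (hq : 0 < q) (hq4 : q < 4) (hP : 0 ≤ P) (H : ∀ n, RootQ q n P) :
    BoundedAt 4 4 4 (4 / 3) := by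
  have e : (((4 : ℝ≥0∞) / 3)⁻¹).toReal = 3 / 4 := by
    rw [ENNReal.inv_div (by simp) (by simp), ENNReal.toReal_div]
    norm_num
  have e4 : (((4 : ℝ≥0∞))⁻¹).toReal = 1 / 4 := by simp
  refine bounded_of_rootQ hq hP H holder_444 (by simp) (by simp) (by simp) ?_ ?_ ?_ ?_ ?_
  · rw [ENNReal.lt_div_iff_mul_lt (by simp) (by simp)]
    norm_num
  all_goals first | rw [e4] | rw [e]
  all_goals linarith

end Vale.Agent.P141.H337
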